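import Vale.Agent.P225.Gen.Weights
import Vale.Agent.P225.Poly.Eig

/-!
# Real harmonic polynomials inside the null-coordinate forms
-/

open MvPolynomial
open Complex (I)

set_option maxSynthPendingDepth 3

namespace Vale.Agent.P225

noncomputable section

variable {p : ℕ}

/-- A real polynomial in null coordinates. -/
def nul (A : Poly (amb p)) : Gen.Pol (p + 1) := ofX p (map (algebraMap ℝ ℂ) A)

theorem toX_nul (A : Poly (amb p)) : toX p (nul A) = map (algebraMap ℝ ℂ) A := toX_ofX _

theorem nul_add (A B : Poly (amb p)) : nul (A + B) = nul A + nul B := by simp [nul]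

theorem nul_smul (c : ℝ) (A : Poly (amb p)) : nul (c • A) = (c : ℂ) • nul A := by
  rw [nul, map_real_smul, map_smul]; rfl

theorem nul_sum {ι : Type*} (s : Finset ι) (f : ι → Poly (amb p)) :
    nul (∑ i ∈ s, f i) = ∑ i ∈ s, nul (f i) := by
  simp [nul, map_sum]

theorem nul_mem_harm {l : ℕ} {A : Poly (amb p)} (hA : IsHarm l A) :
    nul A ∈ Gen.harm (p + 1) l := by
  refine Gen.mem_harm.2 ⟨isHomogeneous_ofX (hA.1.map _), ?_⟩
  have h : toX p ((4 : ℂ) • Gen.lap (p + 1) (nul A)) = toX p 0 := by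
    rw [← clap_toX, toX_nul, clap_map, hA.2, map_zero, map_zero]
  exact (smul_eq_zero.1 (toX_injective h)).resolve_left (by norm_num)

theorem exists_nul_re_im {l : ℕ} {F : Gen.Pol (p + 1)} (hF : F ∈ Gen.harm (p + 1) l) :
    ∃ A B : Poly (amb p), IsHarm l A ∧ IsHarm l B ∧ F = nul A + I • nul B := by
  obtain ⟨A, B, hAB⟩ := exists_re_im (toX p F)
  obtain ⟨h1, h2⟩ := Gen.mem_harm.1 hF
  have hh := isHomogeneous_toX h1
  rw [hAB] at hh
  have hl : clap (amb p) (toX p F) = 0 := by rw [clap_toX, h2, smul_zero, map_zero]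
  rw [hAB, map_add, map_smul, clap_map, clap_map] at hl
  obtain ⟨hA, hB⟩ := re_im_eq_zero hl
  obtain ⟨gA, gB⟩ := isHomogeneous_re_im hh
  refine ⟨A, B, ⟨gA, hA⟩, ⟨gB, hB⟩, ?_⟩
  rw [← ofX_toX F, hAB, map_add, map_smul]
  rfl

variable {l d : ℕ} {b : Fin d → Poly (amb p)} {q : Fin d → ℕ}

/-- A basis element as a complex harmonic form. -/
def nulH (hb : IsEigBasis p l b q) (a : Fin d) : Gen.harm (p + 1) l :=
  ⟨nul (b a), nul_mem_harm (hb.2.1 a)⟩

theorem nulH_linearIndependent (hb : IsEigBasis p l b q) : LinearIndependent ℂ (nulH hb) := by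
  refine LinearIndependent.of_comp (Gen.harm (p + 1) l).subtype ?_
  refine Fintype.linearIndependent_iff.2 fun g hg => ?_
  have h : map (algebraMap ℝ ℂ) (∑ a, (g a).re • b a) +
      I • map (algebraMap ℝ ℂ) (∑ a, (g a).im • b a) = 0 := by
    have h' := congrArg (toX p) hg
    simp only [Function.comp_apply, Submodule.coe_subtype, nulH, map_sum, map_smul, toX_nul,
      map_zero] at h'
    simp only [map_sum, map_real_smul, Finset.smul_sum, smul_smul, ← Finset.sum_add_distrib,
      ← add_smul]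
    refine Eq.trans (Finset.sum_congr rfl fun a _ => ?_) h'
    congr 1
    rw [mul_comm I, Complex.re_add_im]
  obtain ⟨h1, h2⟩ := re_im_eq_zero h
  intro a
  exact Complex.ext (Fintype.linearIndependent_iff.1 hb.1 _ h1 a)
    (Fintype.linearIndependent_iff.1 hb.1 _ h2 a)

theorem nulH_span (hb : IsEigBasis p l b q) : ⊤ ≤ Submodule.span ℂ (Set.range (nulH hb)) := by
  rintro ⟨F, hF⟩ -
  obtain ⟨A, B, hA, hB, rfl⟩ := exists_nul_re_im hF
  obtain ⟨x, hx⟩ := (Submodule.mem_span_range_iff_exists_fun ℝ).1 (hb.2.2.1 A hA)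
  obtain ⟨y, hy⟩ := (Submodule.mem_span_range_iff_exists_fun ℝ).1 (hb.2.2.1 B hB)
  refine (Submodule.mem_span_range_iff_exists_fun ℂ).2
    ⟨fun a => (x a : ℂ) + I * (y a : ℂ), Subtype.ext ?_⟩
  rw [Submodule.coe_sum]
  simp only [Submodule.coe_smul]
  simp only [nulH, ← hx, ← hy, nul_sum, nul_smul,
    add_smul, Finset.sum_add_distrib, Finset.smul_sum, smul_smul]

/-- The complex basis of the harmonic forms. -/
def cbasis (hb : IsEigBasis p l b q) : Module.Basis (Fin d) ℂ (Gen.harm (p + 1) l) :=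
  Module.Basis.mk (nulH_linearIndependent hb) (nulH_span hb)

theorem cbasis_coe (hb : IsEigBasis p l b q) (a : Fin d) :
    (cbasis hb a : Gen.Pol (p + 1)) = nul (b a) := by
  simp [cbasis, nulH]

/-- A real matrix as an operator on the complex harmonic forms. -/
def cop (hb : IsEigBasis p l b q) : Matrix (Fin d) (Fin d) ℝ →+* Module.End ℂ (Gen.harm (p + 1) l) :=
  (Matrix.toLinAlgEquiv (cbasis hb)).toRingEquiv.toRingHom.comp Complex.ofRealHom.mapMatrix

theorem cop_apply (hb : IsEigBasis p l b q) (M : Matrix (Fin d) (Fin d) ℝ) (a : Fin d) :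
    (cop hb M (cbasis hb a) : Gen.Pol (p + 1)) = nul (∑ a', M a' a • b a') := by
  have h : cop hb M (cbasis hb a) = ∑ a', (M a' a : ℂ) • cbasis hb a' := by
    simp [cop, Matrix.toLinAlgEquiv_self]
  simp [h, nul_sum, nul_smul, cbasis_coe]

theorem cop_smul (hb : IsEigBasis p l b q) (c : ℝ) (M : Matrix (Fin d) (Fin d) ℝ) :
    cop hb (c • M) = (c : ℂ) • cop hb M := by
  have h : Complex.ofRealHom.mapMatrix (c • M) = (c : ℂ) • Complex.ofRealHom.mapMatrix M := by
    ext i j; simp
  show Matrix.toLinAlgEquiv (cbasis hb) _ = _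
  rw [h, map_smul]
  rfl

/-- The coefficients of a null coordinate in the real coordinates. -/
def kap (u : Gen.Idx (p + 1)) (i : Fin (amb p)) : ℂ :=
  if i = reIdx (Gen.plane u) then 1 else if i = imIdx (Gen.plane u) then Gen.sgn u * I else 0

theorem sum_kap {β : Type*} [AddCommMonoid β] [Module ℂ β] (u : Gen.Idx (p + 1))
    (f : Fin (amb p) → β) :
    ∑ i, kap u i • f i = f (reIdx (Gen.plane u)) + (Gen.sgn u * I) • f (imIdx (Gen.plane u)) := by
  have hne := reIdx_ne_imIdx (Gen.plane u) (Gen.plane u)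
  rw [Fintype.sum_eq_add (reIdx (Gen.plane u)) (imIdx (Gen.plane u)) hne
    fun i hi => by simp [kap, hi.1, hi.2]]
  simp [kap, hne.symm]

theorem sum_kap_X (u : Gen.Idx (p + 1)) :
    ∑ i, kap u i • (X i : CPoly (amb p)) = zVar u := by
  rw [sum_kap, smul_eq_C_mul]
  rcases u with a | a <;> simp [zVar, Gen.sgn, Gen.plane, sub_eq_add_neg, neg_mul]

theorem sum_kap_pderiv (u : Gen.Idx (p + 1)) (F : Gen.Pol (p + 1)) :
    ∑ i, kap u i • pderiv i (toX p F) = (2 : ℂ) • toX p (pderiv u.swap F) := by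
  rw [sum_kap, pderiv_reIdx_toX, pderiv_imIdx_toX]
  have h : (C I * C I : CPoly (amb p)) = -1 := by rw [← C_mul, Complex.I_mul_I]; simp
  rcases u with a | a
  · simp only [Gen.plane, Gen.sgn, Sum.elim_inl, id, Sum.swap_inl, one_mul, smul_eq_C_mul,
      map_add, map_sub, map_mul, toX, aeval_C, algebraMap_eq, map_ofNat]
    linear_combination ((aeval zVar) (pderiv (Sum.inl a) F) -
      (aeval zVar) (pderiv (Sum.inr a) F)) * h
  · simp only [Gen.plane, Gen.sgn, Sum.elim_inr, id, Sum.swap_inr, neg_mul, one_mul, smul_eq_C_mul,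
      map_add, map_sub, map_mul, toX, aeval_C, algebraMap_eq, map_neg, map_ofNat]
    linear_combination -((aeval zVar) (pderiv (Sum.inl a) F) -
      (aeval zVar) (pderiv (Sum.inr a) F)) * h

/-- The skew field `x_a ∂_c - x_c ∂_a` on complex polynomials. -/
def skewField (a c : Fin (amb p)) (P : CPoly (amb p)) : CPoly (amb p) :=
  X a * pderiv c P - X c * pderiv a P

theorem toX_rot (i j : Gen.Idx (p + 1)) (F : Gen.Pol (p + 1)) :
    toX p (Gen.rot i j F) =
      ∑ a, ∑ c, ((1 / 2 : ℂ) * (kap i a * kap j c)) • skewField a c (toX p F) := by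
  have e : ∀ u v : Gen.Idx (p + 1),
      ∑ a, ∑ c, (kap u a * kap v c) • (X a * pderiv c (toX p F)) =
        (2 : ℂ) • (zVar u * toX p (pderiv v.swap F)) := by
    intro u v
    rw [← mul_smul_comm, ← sum_kap_pderiv, ← sum_kap_X, Finset.sum_mul_sum]
    refine Finset.sum_congr rfl fun a _ => Finset.sum_congr rfl fun c _ => ?_
    rw [smul_mul_smul_comm]
  simp only [skewField, smul_sub, Finset.sum_sub_distrib, ← smul_smul (1 / 2 : ℂ), ← Finset.smul_sum]
  rw [e, show (∑ a, ∑ c, (kap i a * kap j c) • (X c * pderiv a (toX p F))) =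
    (2 : ℂ) • (zVar j * toX p (pderiv i.swap F)) by
      rw [← e, Finset.sum_comm]
      exact Finset.sum_congr rfl fun a _ => Finset.sum_congr rfl fun c _ => by rw [mul_comm (kap i c)],
    Gen.rot_apply, map_sub, map_mul, map_mul, smul_smul, smul_smul]
  norm_num [toX]

/-- The matrix of the plane rotation field. -/
def planeMat (a c : Fin (amb p)) : Matrix (Fin (amb p)) (Fin (amb p)) ℝ :=
  Matrix.single c a 1 - Matrix.single a c 1

theorem planeMat_transpose (a c : Fin (amb p)) : (planeMat a c).transpose = -planeMat a c := by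
  simp [planeMat, Matrix.transpose_single]

theorem toX_nul_xi_plane (a c : Fin (amb p)) (A : Poly (amb p)) :
    toX p (nul (xi (planeMat a c) A)) = skewField a c (toX p (nul A)) := by
  rw [toX_nul, toX_nul, skewField, pderiv_map, pderiv_map]
  have hrow : ∀ i, (∑ j, C (planeMat a c i j) * X j : Poly (amb p)) =
      (if i = c then X a else 0) - (if i = a then X c else 0) := by
    intro i
    simp only [planeMat, Matrix.sub_apply, map_sub, sub_mul, Finset.sum_sub_distrib,
      Matrix.single_apply]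
    congr 1
    · rcases eq_or_ne i c with rfl | h
      · simp [apply_ite, ite_mul]
      · simp [h, Ne.symm h]
    · rcases eq_or_ne i a with rfl | h
      · simp [apply_ite, ite_mul]
      · simp [h, Ne.symm h]
  simp only [xi, hrow, sub_mul, Finset.sum_sub_distrib, ite_mul, zero_mul, Finset.sum_ite_eq',
    Finset.mem_univ, if_true, map_sub, map_mul, map_X]

/-- The flip of the imaginary coordinates in the planes of `S`. -/
def flipSign (S : Finset (Fin (p + 1))) (i : Fin (amb p)) : ℝ :=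
  Sum.elim (fun _ => 1) (fun a => if a ∈ S then -1 else 1) ((halves p).symm i)

theorem flipSign_re (S : Finset (Fin (p + 1))) (a : Fin (p + 1)) : flipSign S (reIdx a) = 1 := by
  rw [flipSign, show reIdx a = halves p (.inl a) from rfl, Equiv.symm_apply_apply]
  rfl

theorem flipSign_im (S : Finset (Fin (p + 1))) (a : Fin (p + 1)) :
    flipSign S (imIdx a) = if a ∈ S then -1 else 1 := by
  rw [flipSign, show imIdx a = halves p (.inr a) from rfl, Equiv.symm_apply_apply]
  rfl

theorem flipSign_mul_self (S : Finset (Fin (p + 1))) (i : Fin (amb p)) :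
    flipSign S i * flipSign S i = 1 := by
  obtain ⟨a, rfl | rfl⟩ := eq_reIdx_or_imIdx i
  · simp [flipSign_re]
  · rw [flipSign_im]; split_ifs <;> norm_num

theorem isOrth_flip (S : Finset (Fin (p + 1))) : IsOrth (Matrix.diagonal (flipSign S)) := by
  constructor <;> simp [Matrix.diagonal_transpose, Matrix.diagonal_mul_diagonal, flipSign_mul_self]

/-- The sum of the plane rotations with the signs of a flip. -/
def degFlip (S : Finset (Fin (p + 1))) : Gen.Pol (p + 1) →ₗ[ℂ] Gen.Pol (p + 1) :=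
  ∑ a : Fin (p + 1), (if a ∈ S then (-1 : ℂ) else 1) •
    (Gen.rot (Sum.inl a) (Sum.inr a)).toLinearMap

theorem cxi_flip_toX (S : Finset (Fin (p + 1))) (F : Gen.Pol (p + 1)) :
    cxi (Jof (Matrix.diagonal (flipSign S))) (toX p F) = toX p (I • degFlip S F) := by
  have hrow : ∀ i, (∑ j, C ((Jof (Matrix.diagonal (flipSign S)) i j : ℂ)) * X j : CPoly (amb p)) =
      ∑ j, C ((flipSign S i * flipSign S j : ℝ) : ℂ) * (C ((J0 p i j : ℂ)) * X j) := by
    intro i
    refine Finset.sum_congr rfl fun j _ => ?_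
    simp [Jof, Matrix.diagonal_transpose, Matrix.mul_diagonal, Matrix.diagonal_mul]
    ring
  have hre : ∀ a, (∑ j, C ((flipSign S (reIdx a) * flipSign S j : ℝ) : ℂ) *
      (C ((J0 p (reIdx a) j : ℂ)) * X j) : CPoly (amb p)) =
      C ((if a ∈ S then -1 else 1 : ℂ)) * -(X (imIdx a)) := by
    intro a
    rw [← J0_row_reIdx, Finset.mul_sum]
    refine Finset.sum_congr rfl fun j _ => ?_
    rcases eq_or_ne j (imIdx a) with rfl | hj
    · rw [flipSign_re, flipSign_im]; split_ifs <;> simp
    · have : J0 p (reIdx a) j = 0 := by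
        simp [J0, reIdx, imIdx, Fin.ext_iff] at hj ⊢
        omega
      simp [this]
  have him : ∀ a, (∑ j, C ((flipSign S (imIdx a) * flipSign S j : ℝ) : ℂ) *
      (C ((J0 p (imIdx a) j : ℂ)) * X j) : CPoly (amb p)) =
      C ((if a ∈ S then -1 else 1 : ℂ)) * X (reIdx a) := by
    intro a
    rw [← J0_row_imIdx, Finset.mul_sum]
    refine Finset.sum_congr rfl fun j _ => ?_
    rcases eq_or_ne j (reIdx a) with rfl | hj
    · rw [flipSign_re, flipSign_im]; split_ifs <;> simp
    · have : J0 p (imIdx a) j = 0 := by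
        simp [J0, reIdx, imIdx, Fin.ext_iff] at hj ⊢
        omega
      simp [this]
  rw [cxi_apply, sum_halves, degFlip, LinearMap.sum_apply, Finset.smul_sum, map_sum]
  refine Finset.sum_congr rfl fun a _ => ?_
  rw [hrow, hrow, hre, him, pderiv_reIdx_toX, pderiv_imIdx_toX]
  simp only [LinearMap.smul_apply, Derivation.coeFn_coe,
    Gen.rot_apply, Sum.swap_inl, Sum.swap_inr, smul_eq_C_mul, toX, map_mul, map_add, map_sub,
    aeval_C, algebraMap_eq, aeval_X]
  rw [show zVar (Sum.inl a) = X (reIdx a) + C I * X (imIdx a) from rfl,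
    show zVar (Sum.inr a) = X (reIdx a) - C I * X (imIdx a) from rfl]
  have h : (C I * C I : CPoly (amb p)) = -1 := by rw [← C_mul, Complex.I_mul_I]; simp
  linear_combination -(C ((if a ∈ S then -1 else 1 : ℂ)) * X (imIdx a) *
    ((aeval zVar) (pderiv (Sum.inl a) F) + (aeval zVar) (pderiv (Sum.inr a) F))) * h

theorem nul_xi_flip (S : Finset (Fin (p + 1))) (A : Poly (amb p)) :
    nul (xi (Jof (Matrix.diagonal (flipSign S))) A) = I • degFlip S (nul A) := by
  apply toX_injective
  rw [← cxi_flip_toX, toX_nul, toX_nul, cxi_map]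

end

end Vale.Agent.P225
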