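import Vale.Agent.P225.Gen.Isolate

/-!
# Every trace-zero map on a single level is generated
-/

open MvPolynomial Finset ComplexConjugate

set_option maxSynthPendingDepth 3

namespace Vale.Agent.P225.Gen

variable {n L : ℕ}

theorem herm_add_left (P Q R : Pol n) : herm (P + Q) R = herm P R + herm Q R := by
  rw [← herm_conj R, ← hermL_apply, map_add, hermL_apply, hermL_apply, map_add, herm_conj,
    herm_conj]

theorem herm_smul_left (c : ℂ) (P R : Pol n) : herm (c • P) R = conj c * herm P R := by
  rw [← herm_conj R, ← hermL_apply, map_smul, hermL_apply, smul_eq_mul, map_mul, herm_conj]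

/-- The linear form given by the product with a harmonic form. -/
noncomputable def pairing (D : ℕ) (P : harm n D) : Module.Dual ℂ (harm n D) :=
  (hermL (P : Pol n)).comp (harm n D).subtype

theorem pairing_apply (D : ℕ) (P Q : harm n D) : pairing D P Q = herm (P : Pol n) (Q : Pol n) :=
  hermL_apply _ _

theorem top_of_rot_invariant {D : ℕ} (hn : 2 ≤ n) (hD : 2 ≤ D) {i0 i k : Idx n}
    (hi0 : i0 = Sum.inl (plane i0)) (h0i : plane i0 ≠ plane i) (h0k : plane i0 ≠ plane k)
    (hik : plane i ≠ plane k) (W : Submodule ℂ (harm n D))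
    (hu : vec D (mono D i0 i.swap k) ∈ W) (hrot : ∀ a b, ∀ x ∈ W, rotH D a b x ∈ W) : W = ⊤ := by
  let W' := W.map (harm n D).subtype
  have hle : W' ≤ harm n D := by rintro _ ⟨x, -, rfl⟩; exact x.2
  have hinv : ∀ a b, ∀ P ∈ W', rot a b P ∈ W' := by
    rintro a b _ ⟨x, hx, rfl⟩
    exact ⟨rotH D a b x, hrot a b x hx, rfl⟩
  have h2 : X i0 ^ (D - 2) * (X i.swap * X k) ∈ W' := by
    refine ⟨_, hu, ?_⟩
    rw [← mono_eq_prod]
    exact vec_coe (monomial_mem_harm hD (by rwa [plane_swap]) h0k (by rwa [plane_swap]))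
  obtain ⟨a1, a2, a3, a4⟩ := ne_of_plane h0i
  obtain ⟨b1, b2, b3, b4⟩ := ne_of_plane h0k
  obtain ⟨d1, d2, d3, d4⟩ := ne_of_plane hik
  have h00 := idx_ne_swap i0
  have h3 : X i0 ^ (D - 2) * (X i0 * X k) ∈ W' := by
    have := hinv i0 i _ h2
    rw [rot_pow_mul _ a2 h00] at this
    simpa [rot_X, a4, Ne.symm a4, Ne.symm b3, Ne.symm d3] using this
  have h4 : X i0 ^ (D - 2) * (X i0 * X i0) ∈ W' := by
    have := hinv i0 k.swap _ h3
    rw [rot_pow_mul _ (by simpa using b1) h00] at this
    simpa [rot_X, b1, h00, Ne.symm b3] using this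
  have hz : (X (Sum.inl (plane i0)) : Pol n) ^ D ∈ W' := by
    rw [← hi0]
    have e : (X i0 : Pol n) ^ D = X i0 ^ (D - 2) * (X i0 * X i0) := by
      rw [← pow_two, ← pow_add]; congr 1; omega
    rwa [e]
  refine eq_top_iff.2 fun x _ => ?_
  obtain ⟨y, hy, e⟩ := harm_le_of_invariant hn W' hle hinv _ hz x.2
  rwa [← Subtype.ext e]

theorem dual_top {D : ℕ}
    {m : Idx n →₀ ℕ} (hm : monomial m (1 : ℂ) ∈ harm n D)
    (hW : ∀ W : Submodule ℂ (harm n D), (∀ a b, ∀ x ∈ W, rotH D a b x ∈ W) →
      (⟨_, hm⟩ : harm n D) ∈ W → W = ⊤)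
    (W : Submodule ℂ (Module.Dual ℂ (harm n D)))
    (hrot : ∀ a b, ∀ φ ∈ W, φ ∘ₗ rotH D a b ∈ W) (hmW : cf D m ∈ W) : W = ⊤ := by
  let U : Submodule ℂ (harm n D) :=
    { carrier := {P | pairing D P ∈ W}
      add_mem' := by
        intro P Q hP hQ
        have e : pairing D (P + Q) = pairing D P + pairing D Q := LinearMap.ext fun R => by
          simp [pairing_apply, herm_add_left]
        simpa only [Set.mem_ofPred_eq, e] using W.add_mem hP hQ
      zero_mem' := by
        have e : pairing D (0 : harm n D) = 0 := LinearMap.ext fun R => by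
          simp [pairing_apply, herm]
        simpa only [Set.mem_ofPred_eq, e] using W.zero_mem
      smul_mem' := by
        intro c P hP
        have e : pairing D (c • P) = conj c • pairing D P := LinearMap.ext fun R => by
          simp [pairing_apply, herm_smul_left]
        simpa only [Set.mem_ofPred_eq, e] using W.smul_mem _ hP }
  have hU : ∀ a b, ∀ x ∈ U, rotH D a b x ∈ U := by
    intro a b x hx
    have e : pairing D (rotH D a b x) = (pairing D x).comp (rotH D b.swap a.swap) :=
      LinearMap.ext fun R => by simp [pairing_apply, herm_rot]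
    show pairing D (rotH D a b x) ∈ W
    rw [e]; exact hrot _ _ _ hx
  have hu : (⟨_, hm⟩ : harm n D) ∈ U := by
    have e : pairing D (⟨_, hm⟩ : harm n D) = (mfact m : ℂ) • cf D m := LinearMap.ext fun R => by
      simp [pairing_apply, lcoeff_eq_herm]
    show pairing D _ ∈ W
    rw [e]; exact W.smul_mem _ hmW
  have htop := hW U hU hu
  have h0 : W.dualCoannihilator = ⊥ := by
    refine (Submodule.eq_bot_iff _).2 fun x hx => ?_
    have hxU : pairing D x ∈ W := (htop ▸ Submodule.mem_top : x ∈ U)
    have := (Submodule.mem_dualCoannihilator x).1 hx _ hxU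
    exact Subtype.ext (herm_self_eq_zero (by simpa [pairing_apply] using this))
  rw [← Subspace.dualCoannihilator_dualAnnihilator_eq (W := W), h0, Submodule.dualAnnihilator_bot]

/-- The state of a corner of the seed square. -/
def corner (a : Fin n) : Bool → Idx n := fun s => if s then .inl a else .inr a

theorem plane_corner (a : Fin n) (s : Bool) : plane (corner a s) = a := by
  cases s <;> rfl

theorem plane_inl (a : Fin n) : plane (Sum.inl a : Idx n) = a := rfl

theorem corner_swap (a : Fin n) (s : Bool) : (corner a s).swap = corner a (!s) := by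
  cases s <;> rfl

theorem corner_injective (a : Fin n) : Function.Injective (corner a) := by
  intro s t; cases s <;> cases t <;> simp [corner]

variable {l : Fin L → ℕ} {c : Fin L → ℝ} {G : Submodule ℂ (Lev n l)}

theorem single_mem_step (hG : Closed c G) (hn : 4 ≤ n) (hl : Function.Injective l)
    (hl2 : ∀ j, 2 ≤ l j) (hc0 : ∀ j, 0 < c j) (hc : ∀ i j, l i < l j → c j < c i) (t : Fin L)
    (hup : ∀ j, l t < l j → ∀ T, LinearMap.trace ℂ (harm n (l j)) T = 0 → Pi.single j T ∈ G)
    (T : Module.End ℂ (harm n (l t))) (hT : LinearMap.trace ℂ (harm n (l t)) T = 0) :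
    Pi.single t T ∈ G := by
  classical
  let a0 : Fin n := ⟨0, by omega⟩
  let a : Fin n := ⟨1, by omega⟩
  let b : Fin n := ⟨2, by omega⟩
  let e : Fin n := ⟨3, by omega⟩
  let D := l t
  let M : Bool × Bool → (Idx n →₀ ℕ) := fun o => mono D (.inl a0) (corner a o.1) (corner b o.2)
  have hF1 : ∀ s u, Frame (.inl a0) (corner a s) (corner b u) (.inl e : Idx n) := fun s u => by
    constructor <;> simp [plane_corner, plane_inl, a0, a, b, e, Fin.ext_iff]
  have hF2 : ∀ s u, Frame (.inl a0) (corner b u) (corner a s) (.inl e : Idx n) := fun s u => by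
    constructor <;> simp [plane_corner, plane_inl, a0, a, b, e, Fin.ext_iff]
  have hmem : ∀ o, monomial (M o) (1 : ℂ) ∈ harm n D := fun o =>
    monomial_mem_harm (hl2 t) (hF1 o.1 o.2).h0i (hF1 o.1 o.2).h0k (hF1 o.1 o.2).hik
  have hMinj : Function.Injective M := by
    intro o o' h
    have ab : ∀ s u, corner a s ≠ corner b u := fun s u =>
      (ne_of_plane (hF1 s u).hik).1
    have a0' : ∀ s, (Sum.inl a0 : Idx n) ≠ corner a s ∧ (Sum.inl a0 : Idx n) ≠ corner b s := fun s =>
      ⟨(ne_of_plane (hF1 s true).h0i).1, (ne_of_plane (hF2 true s).h0i).1⟩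
    refine Prod.ext ?_ ?_
    · by_contra hne
      have := DFunLike.congr_fun h (corner a o.1)
      simp [M, mono, (a0' o.1).1, (ab _ _).symm, (corner_injective a).ne (Ne.symm hne)] at this
    · by_contra hne
      have := DFunLike.congr_fun h (corner b o.2)
      simp [M, mono, (a0' o.2).2, ab, (corner_injective b).ne (Ne.symm hne)] at this
  let A : Submodule ℂ (Module.End ℂ (harm n D)) :=
    G.comap (LinearMap.single ℂ (fun j => Module.End ℂ (harm n (l j))) t)
  have hA : ∀ S, S ∈ A ↔ Pi.single t S ∈ G := fun S => Iff.rfl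
  have hbr : ∀ S ∈ A, ∀ U ∈ A, S * U - U * S ∈ A := by
    intro S hS U hU
    rw [hA] at hS hU ⊢
    rw [Pi.single_sub, Pi.single_mul, Pi.single_mul]
    exact hG.bracket _ hS _ hU
  have hflip1 : ∀ s u, rk (vec D (M (s, u))) (cf D (M (!s, u))) ∈ A := fun s u => by
    have := rk_isolate hG hl hl2 hc0 hc t hup (hF1 s u)
    rwa [corner_swap] at this
  have hflip2 : ∀ s u, rk (vec D (M (s, u))) (cf D (M (s, !u))) ∈ A := fun s u => by
    have := rk_isolate hG hl hl2 hc0 hc t hup (hF2 s u)
    rwa [corner_swap, mono_comm (i := corner b u), mono_comm (i := corner b (!u))] at this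
  have hdual : ∀ o o', cf D (M o) (vec D (M o')) = if o' = o then 1 else 0 := fun o o' => by
    rw [cf_apply, vec_coe (hmem o'), coeff_monomial]
    exact if_congr hMinj.eq_iff rfl rfl
  let S : Seeded (harm n D) (Idx n × Idx n) (Bool × Bool) :=
    { A := A
      op := fun k => rotH D k.1 k.2
      e := fun o => vec D (M o)
      f := fun o => cf D (M o)
      bracket := hbr
      ad := by
        intro k S hS
        rw [hA] at hS ⊢
        convert hG.ad k.1 k.2 _ hS using 1
        funext j
        rcases eq_or_ne j t with rfl | hj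
        · simp [D]
        · simp [hj]
      dual_self := fun o => by rw [hdual, if_pos rfl]
      dual_ne := fun o o' h => by rw [hdual, if_neg h.symm]
      seed := by
        rintro ⟨s, u⟩ ⟨s', u'⟩ h
        by_cases hs : s' = s
        · subst hs
          have : u' = !u := by cases u <;> cases u' <;> simp_all
          subst this
          exact hflip2 _ _
        · have hs' : s' = !s := by cases s <;> cases s' <;> simp_all
          subst hs'
          by_cases hu : u' = u
          · subst hu; exact hflip1 _ _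
          · have hu' : u' = !u := by cases u <;> cases u' <;> simp_all
            subst hu'
            have h1 := hbr _ (hflip1 s u) _ (hflip2 (!s) u)
            rw [rk_bracket, hdual, hdual, if_pos rfl, if_neg (by simp)] at h1
            simpa using h1
      third := by
        intro o o'
        exact (show ∀ o o' : Bool × Bool, ∃ z, z ≠ o ∧ z ≠ o' by decide) o o' }
  have hcyc : ∀ W : Submodule ℂ (harm n D), ∀ o, vec D (M o) ∈ W →
      (∀ a b, ∀ x ∈ W, rotH D a b x ∈ W) → W = ⊤ := by
    intro W o ho hrot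
    have hF := hF1 (!o.1) o.2
    refine top_of_rot_invariant (by omega) (hl2 t) (i0 := .inl a0) rfl hF.h0i hF.h0k hF.hik W ?_ hrot
    rw [corner_swap, Bool.not_not]
    exact ho
  have hcyc' : ∀ W : Submodule ℂ (Module.Dual ℂ (harm n D)), cf D (M (true, true)) ∈ W →
      (∀ a b, ∀ φ ∈ W, φ ∘ₗ rotH D a b ∈ W) → W = ⊤ := by
    intro W ho hrot
    refine dual_top (hmem (true, true)) (fun U hU hu => hcyc U (true, true) ?_ hU) W hrot ho
    rwa [show vec D (M (true, true)) = ⟨_, hmem (true, true)⟩ from Subtype.ext (vec_coe (hmem _))]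
  exact S.trace_zero_mem (fun W he hk => hcyc W (true, true) (he _) fun a b => hk (a, b))
    (fun W hf hk => hcyc' W (hf _) fun a b => hk (a, b)) T hT

/-- All trace-zero maps on single levels are generated. -/
theorem single_mem (hG : Closed c G) (hn : 4 ≤ n) (hl : Function.Injective l)
    (hl2 : ∀ j, 2 ≤ l j) (hc0 : ∀ j, 0 < c j) (hc : ∀ i j, l i < l j → c j < c i) :
    ∀ (t : Fin L) (T : Module.End ℂ (harm n (l t))),
      LinearMap.trace ℂ (harm n (l t)) T = 0 → Pi.single t T ∈ G := by
  suffices h : ∀ (k : ℕ) (t : Fin L), univ.sup l ≤ l t + k → ∀ T,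
      LinearMap.trace ℂ (harm n (l t)) T = 0 → Pi.single t T ∈ G from
    fun t => h _ t le_add_self
  intro k
  induction k with
  | zero =>
    intro t ht
    refine single_mem_step hG hn hl hl2 hc0 hc t fun j hj => ?_
    have := Finset.le_sup (f := l) (mem_univ j)
    omega
  | succ k ih =>
    intro t ht
    exact single_mem_step hG hn hl hl2 hc0 hc t fun j hj => ih j (by omega)

end Vale.Agent.P225.Gen
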