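import Vale.Agent.P225.Gen.Bridge
import Vale.Agent.P225.Gen.Single

/-!
# A closed real space containing the generators is everything
-/

open MvPolynomial
open Complex (I)

set_option maxSynthPendingDepth 3

namespace Vale.Agent.P225

noncomputable section

variable {p L : ℕ} {l d : Fin L → ℕ} {b : (i : Fin L) → Fin (d i) → Poly (amb p)}
  {q : (i : Fin L) → Fin (d i) → ℕ}

theorem top_of_closed {c sh : Fin L → ℝ} (hp : 3 ≤ p) (hl : Function.Injective l)
    (hl3 : ∀ i, 3 ≤ l i) (hb : ∀ i, IsEigBasis p (l i) (b i) (q i)) (hc0 : ∀ i, 0 < c i)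
    (hc : ∀ i j, l i < l j → c j < c i)
    (W : Submodule ℝ ((i : Fin L) → Matrix (Fin (d i)) (Fin (d i)) ℝ))
    (h1 : ∀ i, Pi.single i 1 ∈ W)
    (hgen : ∀ (U : Matrix (Fin (amb p)) (Fin (amb p)) ℝ)
      (R Ri : (i : Fin L) → Matrix (Fin (d i)) (Fin (d i)) ℝ), IsOrth U →
      (∀ i, IsRotMatrix (b i) U (R i)) → (∀ i, R i * Ri i = 1 ∧ Ri i * R i = 1) →
      (fun i => R i * Matrix.diagonal (fun a => sh i - c i * (q i a : ℝ) ^ 2) * Ri i) ∈ W)
    (hbr : ∀ x ∈ W, ∀ y ∈ W, x * y - y * x ∈ W)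
    (hD : ∀ (a e : Fin (amb p)) (Dm : (i : Fin L) → Matrix (Fin (d i)) (Fin (d i)) ℝ),
      (∀ i k, xi (planeMat a e) (b i k) = ∑ k', Dm i k' k • b i k') →
      ∀ x ∈ W, Dm * x - x * Dm ∈ W) : W = ⊤ := by
  classical
  let Φ : ((i : Fin L) → Matrix (Fin (d i)) (Fin (d i)) ℝ) →+* Gen.Lev (p + 1) l :=
    Pi.ringHom fun i => (cop (hb i)).comp (Pi.evalRingHom _ i)
  have hΦ : ∀ x i, Φ x i = cop (hb i) (x i) := fun _ _ => rfl
  let G : Submodule ℂ (Gen.Lev (p + 1) l) := Submodule.span ℂ (Φ '' W)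
  have hΦG : ∀ x ∈ W, Φ x ∈ G := fun x hx => Submodule.subset_span ⟨x, hx, rfl⟩
  have lift : ∀ K : Gen.Lev (p + 1) l, (∀ x ∈ W, K * Φ x - Φ x * K ∈ G) →
      ∀ T ∈ G, K * T - T * K ∈ G := by
    intro K hK T hT
    induction hT using Submodule.span_induction with
    | mem T hT => obtain ⟨x, hx, rfl⟩ := hT; exact hK x hx
    | zero => simp
    | add S T _ _ hS hT =>
      rw [mul_add, add_mul, add_sub_add_comm]; exact G.add_mem hS hT
    | smul r T _ hT =>
      rw [mul_smul_comm, smul_mul_assoc, ← smul_sub]; exact G.smul_mem r hT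
  have hGbr : ∀ S ∈ G, ∀ T ∈ G, S * T - T * S ∈ G := by
    intro S hS T hT
    refine lift S (fun x hx => ?_) T hT
    have := lift (Φ x) (fun y hy => ?_) S hS
    · rw [← neg_sub]; exact G.neg_mem this
    · rw [← map_mul, ← map_mul, ← map_sub]; exact hΦG _ (hbr x hx y hy)
  have hGad : ∀ i j, ∀ T ∈ G, (fun k => Gen.rotH (l k) i j) * T -
      T * (fun k => Gen.rotH (l k) i j) ∈ G := by
    intro u v
    have hDm : ∀ a e : Fin (amb p), ∃ Dm : (i : Fin L) → Matrix (Fin (d i)) (Fin (d i)) ℝ,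
        ∀ i k, xi (planeMat a e) (b i k) = ∑ k', Dm i k' k • b i k' := by
      intro a e
      choose g hg using fun i k => (Submodule.mem_span_range_iff_exists_fun ℝ).1
        ((hb i).2.2.1 _ (isHarm_xi (planeMat_transpose a e) ((hb i).2.1 k)))
      exact ⟨fun i k' k => g i k k', fun i k => (hg i k).symm⟩
    choose Dm hDm using hDm
    have e : (fun k => Gen.rotH (l k) u v) =
        ∑ a, ∑ e, ((1 / 2 : ℂ) * (kap u a * kap v e)) • Φ (Dm a e) := by
      funext i
      refine (cbasis (hb i)).ext fun k => Subtype.ext (toX_injective ?_)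
      simp only [Gen.rotH_coe, toX_rot, Finset.sum_apply, Pi.smul_apply, LinearMap.coe_sum,
        LinearMap.smul_apply, Submodule.coe_sum, Submodule.coe_smul, map_sum, map_smul, hΦ,
        cop_apply, cbasis_coe, ← hDm, toX_nul_xi_plane]
    intro T hT
    rw [e]
    simp only [Finset.sum_mul, Finset.mul_sum, smul_mul_assoc, mul_smul_comm,
      ← Finset.sum_sub_distrib, ← smul_sub]
    refine G.sum_mem fun a _ => G.sum_mem fun e _ => G.smul_mem _ ?_
    refine lift _ (fun x hx => ?_) T hT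
    rw [← map_mul, ← map_mul, ← map_sub]
    exact hΦG _ (hD a e _ (hDm a e) x hx)
  -- the flipped generators
  let H : Finset (Fin (p + 1)) → Gen.Lev (p + 1) l := fun S i =>
    ∑ a : Fin (p + 1), (if a ∈ S then (-1 : ℂ) else 1) • Gen.hH (l i) a
  have hflip : ∀ S, (fun i => (sh i : ℂ) • (1 : Module.End ℂ (Gen.harm (p + 1) (l i))) +
      (c i : ℂ) • -(H S i * H S i)) ∈ G := by
    intro S
    have hU := isOrth_flip S
    choose R Ri hR _ hRR hRR' using fun i => (hb i).exists_rotMatrix hU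
    have hmem := hΦG _ (hgen _ R Ri hU hR fun i => ⟨hRR i, hRR' i⟩)
    convert hmem using 1
    funext i
    set Q : Matrix (Fin (d i)) (Fin (d i)) ℝ := Matrix.diagonal fun a => -((q i a : ℝ) ^ 2)
    have eY : Matrix.diagonal (fun a => sh i - c i * (q i a : ℝ) ^ 2) = sh i • 1 + c i • Q := by
      ext a a'
      rcases eq_or_ne a a' with rfl | h
      · simp [Q]; ring
      · simp [Q, h]
    have hHS : ∀ F : Gen.harm (p + 1) (l i),
        (H S i F : Gen.Pol (p + 1)) = degFlip S (F : Gen.Pol (p + 1)) := by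
      intro F
      simp [H, degFlip, Gen.hH]
      refine Finset.sum_congr rfl fun a _ => ?_
      split_ifs <;> simp
    have key : -(H S i * H S i) * cop (hb i) (R i) = cop (hb i) (R i) * cop (hb i) Q := by
      rw [← map_mul]
      refine (cbasis (hb i)).ext fun a => Subtype.ext ?_
      simp only [Module.End.mul_apply, LinearMap.neg_apply, Submodule.coe_neg, hHS, cop_apply,
        ← hR i a, Q, Matrix.mul_diagonal]
      have e2 := xi_Jof_rot hU (xi (J0 p) (b i a))
      rw [← xi_Jof_rot hU (b i a), (hb i).2.2.2.2 a, rot_smul] at e2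
      have e3 := congrArg nul e2
      rw [nul_xi_flip, nul_xi_flip, map_smul, smul_smul, Complex.I_mul_I, neg_one_smul] at e3
      rw [e3, hR i a, Finset.smul_sum]
      simp [smul_smul, mul_comm]
    have hinv : cop (hb i) (R i) * cop (hb i) (Ri i) = 1 := by rw [← map_mul, hRR i, map_one]
    have key' : -(H S i * H S i) = cop (hb i) (R i) * cop (hb i) Q * cop (hb i) (Ri i) := by
      rw [← key, mul_assoc, hinv, mul_one]
    rw [hΦ, eY, key']
    simp only [mul_add, add_mul, Matrix.mul_smul, Matrix.smul_mul, map_add, cop_smul, map_mul,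
      map_one, mul_one, hinv]
  have hseed : ∀ a e : Fin (p + 1), a ≠ e →
      (fun k => (c k : ℂ) • (Gen.hH (l k) a * Gen.hH (l k) e)) ∈ G := by
    intro a e hae
    refine (Submodule.smul_mem_iff G (show (-8 : ℂ) ≠ 0 by norm_num)).1 ?_
    have hm := G.add_mem (G.sub_mem (G.sub_mem (hflip ∅) (hflip {a})) (hflip {e})) (hflip {a, e})
    convert hm using 1
    funext k
    set h0 : Module.End ℂ (Gen.harm (p + 1) (l k)) := ∑ x, Gen.hH (l k) x
    have eH : ∀ S : Finset (Fin (p + 1)),
        H S k = h0 - (2 : ℂ) • ∑ x ∈ S, Gen.hH (l k) x := by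
      intro S
      have : ∀ x : Fin (p + 1), (if x ∈ S then (-1 : ℂ) else 1) • Gen.hH (l k) x =
          Gen.hH (l k) x - (2 : ℂ) • (if x ∈ S then Gen.hH (l k) x else 0) := fun x => by
        split_ifs <;> module
      simp only [H, this, Finset.sum_sub_distrib, ← Finset.smul_sum, Finset.sum_ite_mem,
        Finset.univ_inter, h0]
    simp only [Pi.smul_apply, Pi.add_apply, Pi.sub_apply, eH, Finset.sum_empty, Finset.sum_pair hae,
      Finset.sum_singleton, smul_zero, sub_zero]
    simp only [mul_sub, sub_mul, mul_add, add_mul, mul_smul_comm, smul_mul_assoc, smul_add,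
      (Gen.hH_commute (l k) e a).eq]
    module
  have hclosed : Gen.Closed c G := ⟨hGbr, hGad, hseed⟩
  have hsingle := Gen.single_mem hclosed (by omega) hl (fun j => by linarith [hl3 j]) hc0 hc
  have hG : G = ⊤ := by
    refine eq_top_iff.2 fun z _ => ?_
    rw [← Finset.univ_sum_single z]
    refine G.sum_mem fun j _ => ?_
    set r : ℂ := LinearMap.trace ℂ (Gen.harm (p + 1) (l j)) (z j) / (d j : ℂ)
    have hd : (d j : ℂ) ≠ 0 := by
      intro h0
      have hd0 : d j = 0 := by exact_mod_cast h0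
      have hm := Gen.monomial_mem_harm (n := p + 1) (D := l j) (by linarith [hl3 j])
        (i0 := Sum.inl ⟨0, by omega⟩) (i := Sum.inl ⟨1, by omega⟩) (k := Sum.inl ⟨2, by omega⟩)
        (by simp [Gen.plane]) (by simp [Gen.plane]) (by simp [Gen.plane])
      have : IsEmpty (Fin (d j)) := by rw [hd0]; exact Fin.isEmpty'
      have hz := (cbasis (hb j)).sum_repr (⟨_, hm⟩ : Gen.harm (p + 1) (l j))
      rw [Fintype.sum_empty] at hz
      exact one_ne_zero (monomial_eq_zero.1 (Subtype.ext_iff.1 hz.symm))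
    have htr : LinearMap.trace ℂ (Gen.harm (p + 1) (l j)) (z j - r • 1) = 0 := by
      rw [map_sub, map_smul, LinearMap.trace_one, Module.finrank_eq_card_basis (cbasis (hb j)),
        Fintype.card_fin, smul_eq_mul, div_mul_cancel₀ _ hd, sub_self]
    have hone : Pi.single j (1 : Module.End ℂ (Gen.harm (p + 1) (l j))) ∈ G := by
      convert hΦG _ (h1 j) using 1
      funext i
      rcases eq_or_ne i j with rfl | h
      · simp [hΦ]
      · simp [hΦ, h]
    have := G.add_mem (hsingle j _ htr) (G.smul_mem r hone)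
    rwa [← Pi.single_smul, ← Pi.single_add, sub_add_cancel] at this
  -- real parts
  let Ψ : Gen.Lev (p + 1) l → ((i : Fin L) → Matrix (Fin (d i)) (Fin (d i)) ℝ) := fun z i =>
    ((Matrix.toLinAlgEquiv (cbasis (hb i))).symm (z i)).map Complex.re
  have hΨ : ∀ (r : ℂ) x, Ψ (r • Φ x) = r.re • x := by
    intro r x
    funext i
    ext a a'
    simp [Ψ, hΦ, cop]
  have hΨadd : ∀ x y, Ψ (x + y) = Ψ x + Ψ y := fun x y => by
    funext i; ext a a'; simp [Ψ]
  have hG' : ∀ z ∈ G, ∀ r : ℂ, Ψ (r • z) ∈ W := by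
    intro z hz
    induction hz using Submodule.span_induction with
    | mem z hz => obtain ⟨x, hx, rfl⟩ := hz; intro r; rw [hΨ]; exact W.smul_mem _ hx
    | zero =>
      intro r
      have := hΨ 0 0
      simp only [zero_smul] at this
      rw [smul_zero, this, Complex.zero_re, zero_smul]
      exact W.zero_mem
    | add x y _ _ hx hy => intro r; rw [smul_add, hΨadd]; exact W.add_mem (hx r) (hy r)
    | smul s x _ hx => intro r; rw [smul_smul]; exact hx _
  refine eq_top_iff.2 fun x _ => ?_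
  have := hG' (Φ x) (hG ▸ Submodule.mem_top) 1
  rwa [hΨ, Complex.one_re, one_smul] at this

end

end Vale.Agent.P225
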