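import Vale.Agent.P225.Gen.Word
import Vale.Agent.P225.Poly.Rot

/-!
# P225: the real side of the generation

The letters are the orthogonal matrices. The smallest space with the generators and the level
scalars that is closed under brackets with the generators is closed under brackets, under
conjugation by rotation matrices, and hence under brackets with the matrices of the vector fields
of infinitesimal rotations.
-/

namespace Vale.Agent.P225.Gen

open MvPolynomial Filter Topology
open Alpha (planeRot planeRot_add)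

noncomputable section

variable {N L : ℕ}

/-- A left inverse of the map from coordinates to polynomials, when there is one. -/
def coordMap {m : ℕ} (b : Fin m → Poly N) : Poly N →ₗ[ℝ] Fin m → ℝ :=
  Classical.epsilon fun g => g ∘ₗ Fintype.linearCombination ℝ b = LinearMap.id

theorem coordMap_sum {m : ℕ} {b : Fin m → Poly N} (hb : LinearIndependent ℝ b) (c : Fin m → ℝ) :
    coordMap b (∑ a, c a • b a) = c := by
  have h := Classical.epsilon_spec ((Fintype.linearCombination ℝ b).exists_leftInverse_of_injective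
    (LinearMap.ker_eq_bot.2 hb.fintypeLinearCombination_injective))
  simpa [coordMap, Fintype.linearCombination_apply] using LinearMap.congr_fun h c

theorem sum_coordMap {m : ℕ} {b : Fin m → Poly N} (hb : LinearIndependent ℝ b) {P : Poly N}
    (hP : P ∈ Submodule.span ℝ (Set.range b)) : ∑ a, coordMap b P a • b a = P := by
  obtain ⟨c, rfl⟩ := (Submodule.mem_span_range_iff_exists_fun ℝ).1 hP
  rw [coordMap_sum hb]

/-- The matrix of `rot U`. -/
def rotMat {m : ℕ} (b : Fin m → Poly N) (U : Matrix (Fin N) (Fin N) ℝ) :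
    Matrix (Fin m) (Fin m) ℝ :=
  Matrix.of fun a' a => coordMap b (rot U (b a)) a'

/-- The matrix of the vector field of `E`. -/
def vfMat {m : ℕ} (b : Fin m → Poly N) (E : Matrix (Fin N) (Fin N) ℝ) :
    Matrix (Fin m) (Fin m) ℝ :=
  Matrix.of fun a' a => coordMap b (vf E (b a)) a'

theorem rot_linear_deriv {U : ℝ → Matrix (Fin N) (Fin N) ℝ} {E : Matrix (Fin N) (Fin N) ℝ}
    (hE : E.transpose = -E) (h0 : U 0 = 1) (hU : ∀ i j, HasDerivAt (fun t => U t i j) (E i j) 0)
    (P : Poly N) : ∀ φ : Poly N →ₗ[ℝ] ℝ,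
      HasDerivAt (fun t => φ (rot (U t) P)) (φ (-vf E P)) 0 := by
  induction P using MvPolynomial.induction_on with
  | C a =>
    intro φ
    simp only [rot_C]
    simpa [vf_apply] using hasDerivAt_const (0 : ℝ) (φ (C a))
  | add P Q hP hQ =>
    intro φ
    simpa [rot_add, map_add, add_comm] using (hP φ).fun_add (hQ φ)
  | mul_X P i h =>
    intro φ
    have e : ∀ t, φ (rot (U t) (P * X i)) = ∑ j, U t j i * φ (rot (U t) P * X j) := by
      intro t
      rw [rot_mul, rot_X, Finset.mul_sum, map_sum]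
      refine Finset.sum_congr rfl fun j _ => ?_
      rw [← mul_assoc, mul_comm _ (C (U t j i)), mul_assoc, ← smul_eq_C_mul, map_smul, smul_eq_mul]
    simp only [e]
    have hj : ∀ j, HasDerivAt (fun t => φ (rot (U t) P * X j)) (φ (-vf E P * X j)) 0 := fun j => by
      simpa using h (φ ∘ₗ LinearMap.mulRight ℝ (X j))
    have h1 : HasDerivAt (fun t => ∑ j, U t j i * φ (rot (U t) P * X j))
        (∑ j, (E j i * φ (rot (U 0) P * X j) + U 0 j i * φ (-vf E P * X j))) 0 :=
      HasDerivAt.fun_sum fun j _ => (hU j i).fun_mul (hj j)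
    convert h1 using 1
    have hvf : vf E (P * X i) = vf E P * X i + P * ∑ j, C (E i j) * X j := by
      simp only [vf_apply, pderiv_mul, mul_add, Finset.sum_add_distrib]
      congr 1
      · rw [Finset.sum_mul]
        exact Finset.sum_congr rfl fun k _ => by ring
      · rw [Finset.sum_eq_single_of_mem i (Finset.mem_univ i) fun k _ hk => by
          simp [pderiv_X_of_ne (Ne.symm hk)], pderiv_X_self]
        ring
    have hsk : ∀ j, E j i = -E i j := fun j => by simpa using congrFun (congrFun hE i) j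
    simp only [hvf, h0, rot_one, Finset.sum_add_distrib, Matrix.one_apply, ite_mul, one_mul,
      zero_mul, Finset.sum_ite_eq', Finset.mem_univ, if_true, hsk, neg_mul, Finset.sum_neg_distrib,
      neg_add, map_add, map_neg, Finset.mul_sum, map_sum]
    rw [add_comm]
    congr 2
    refine Finset.sum_congr rfl fun j _ => ?_
    rw [← mul_assoc, mul_comm P, mul_assoc, ← smul_eq_C_mul, map_smul, smul_eq_mul]

theorem transpose_planeRot (a b : Fin N) (θ : ℝ) :
    (planeRot a b θ).transpose = planeRot a b (-θ) := by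
  simp only [planeRot, Matrix.transpose_add, Matrix.transpose_smul, Matrix.transpose_sub,
    Matrix.transpose_one, Matrix.transpose_single, Real.cos_neg, Real.sin_neg]
  module

theorem isOrth_planeRot {a b : Fin N} (hab : a ≠ b) (θ : ℝ) : IsOrth (planeRot a b θ) := by
  have h0 : planeRot a b (0 : ℝ) = 1 := by simp [planeRot]
  constructor <;> rw [transpose_planeRot, ← planeRot_add hab] <;> simp [h0]

theorem hasDerivAt_planeRot (a b i j : Fin N) :
    HasDerivAt (fun t => planeRot a b t i j)
      ((Matrix.single b a (1 : ℝ) - Matrix.single a b 1 : Matrix (Fin N) (Fin N) ℝ) i j) 0 := by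
  simp only [planeRot, Matrix.add_apply, Matrix.smul_apply, smul_eq_mul]
  have hc : HasDerivAt (fun t => Real.cos t - 1) 0 0 := by
    simpa using (Real.hasDerivAt_cos 0).sub_const 1
  have hs : HasDerivAt Real.sin 1 0 := by simpa using Real.hasDerivAt_sin 0
  have h := ((hasDerivAt_const (0 : ℝ) ((1 : Matrix (Fin N) (Fin N) ℝ) i j)).fun_add
    (hc.mul_const (Matrix.single a a (1 : ℝ) i j + Matrix.single b b (1 : ℝ) i j))).fun_add
      (hs.mul_const (Matrix.single b a (1 : ℝ) i j - Matrix.single a b (1 : ℝ) i j))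
  simp only [Matrix.sub_apply]
  exact h.congr_deriv (by ring)

/-- The orthogonal matrices, the letters. -/
abbrev Orth (N : ℕ) := {U : Matrix (Fin N) (Fin N) ℝ // IsOrth U}

/-- The orthogonal product. -/
def Orth.mul (U V : Orth N) : Orth N :=
  ⟨U.1 * V.1, by
    constructor
    · rw [Matrix.transpose_mul, Matrix.mul_assoc, ← Matrix.mul_assoc V.1, V.2.1, Matrix.one_mul,
        U.2.1]
    · rw [Matrix.transpose_mul, Matrix.mul_assoc, ← Matrix.mul_assoc U.1.transpose, U.2.2,
        Matrix.one_mul, V.2.2]⟩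

/-- Bases of harmonic polynomials on finitely many levels. -/
structure HBasis (N : ℕ) {L : ℕ} (d : Fin L → ℕ) where
  l : Fin L → ℕ
  b : (i : Fin L) → Fin (d i) → Poly N
  li : ∀ i, LinearIndependent ℝ (b i)
  harm : ∀ i a, IsHarm (l i) (b i a)
  span : ∀ i P, IsHarm (l i) P → P ∈ Submodule.span ℝ (Set.range (b i))

namespace HBasis

variable {d : Fin L → ℕ} (B : HBasis N d)

theorem isRotMatrix {U : Matrix (Fin N) (Fin N) ℝ} (hU : IsOrth U) (i : Fin L) :
    IsRotMatrix (B.b i) U (rotMat (B.b i) U) := fun a =>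
  (sum_coordMap (B.li i) (B.span i _ (isHarm_rot hU (B.harm i a)))).symm

theorem rotMat_unique {i : Fin L} {U : Matrix (Fin N) (Fin N) ℝ}
    {R : Matrix (Fin (d i)) (Fin (d i)) ℝ} (h : IsRotMatrix (B.b i) U R) :
    rotMat (B.b i) U = R := by
  ext a' a
  simp only [rotMat, Matrix.of_apply]
  rw [h a, coordMap_sum (B.li i) fun a' => R a' a]

theorem rotMat_mul {U V : Matrix (Fin N) (Fin N) ℝ} (hU : IsOrth U) (hV : IsOrth V) (i : Fin L) :
    rotMat (B.b i) (U * V) = rotMat (B.b i) U * rotMat (B.b i) V := by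
  refine B.rotMat_unique fun a => ?_
  rw [← rot_rot, B.isRotMatrix hV i a]
  simp only [rot_sum, rot_smul, B.isRotMatrix hU i _, Finset.smul_sum, smul_smul,
    Matrix.mul_apply, Finset.sum_smul]
  rw [Finset.sum_comm]
  exact Finset.sum_congr rfl fun a' _ => Finset.sum_congr rfl fun c _ => by rw [mul_comm]

theorem rotMat_one (i : Fin L) : rotMat (B.b i) 1 = 1 := by
  refine B.rotMat_unique fun a => ?_
  simp [rot_one, Matrix.one_apply]

theorem rotMat_transpose_mul {U : Matrix (Fin N) (Fin N) ℝ} (hU : IsOrth U) (i : Fin L) :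
    rotMat (B.b i) U.transpose * rotMat (B.b i) U = 1 := by
  rw [← B.rotMat_mul hU.transpose hU, hU.2, B.rotMat_one]

theorem rotMat_mul_transpose {U : Matrix (Fin N) (Fin N) ℝ} (hU : IsOrth U) (i : Fin L) :
    rotMat (B.b i) U * rotMat (B.b i) U.transpose = 1 := by
  rw [← B.rotMat_mul hU hU.transpose, hU.1, B.rotMat_one]

/-- The rotation letters with the rates `Y`. -/
def alpha (Y : (i : Fin L) → Fin (d i) → ℝ) : Alpha d (Orth N) where
  R U := fun i => rotMat (B.b i) U.1
  Ri U := fun i => rotMat (B.b i) U.1.transpose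
  Y := Y
  right_inv U := B.rotMat_mul_transpose U.2
  left_inv U := B.rotMat_transpose_mul U.2

/-- The matrices of the vector field of `E`, level by level. -/
def dm (E : Matrix (Fin N) (Fin N) ℝ) : LevAlg d := fun i => vfMat (B.b i) E

theorem dm_spec {E : Matrix (Fin N) (Fin N) ℝ} (hE : E.transpose = -E) (i : Fin L)
    (a : Fin (d i)) : vf E (B.b i a) = ∑ a', B.dm E i a' a • B.b i a' := by
  refine (sum_coordMap (B.li i) (B.span i _ ?_)).symm
  rw [← xi_eq_vf]
  exact isHarm_xi hE (B.harm i a)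

theorem dm_unique {E : Matrix (Fin N) (Fin N) ℝ} {i : Fin L}
    {D : Matrix (Fin (d i)) (Fin (d i)) ℝ} (h : ∀ a, vf E (B.b i a) = ∑ a', D a' a • B.b i a') :
    B.dm E i = D := by
  ext a' a
  simp only [dm, vfMat, Matrix.of_apply]
  rw [h a, coordMap_sum (B.li i) fun a' => D a' a]

/-- What the smallest space of the generation hypothesis satisfies. -/
theorem exists_closed (Y : (i : Fin L) → Fin (d i) → ℝ) (W : Submodule ℝ (LevAlg d))
    (h1 : ∀ i, Pi.single i 1 ∈ W) (h2 : ∀ U, (B.alpha Y).gen U ∈ W)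
    (h3 : ∀ U, ∀ w ∈ W, (B.alpha Y).gen U * w - w * (B.alpha Y).gen U ∈ W) :
    ∃ W0 ≤ W, (∀ i, Pi.single i 1 ∈ W0) ∧ (∀ U, (B.alpha Y).gen U ∈ W0) ∧
      (∀ x ∈ W0, ∀ y ∈ W0, x * y - y * x ∈ W0) ∧
      ∀ (a c : Fin N), ∀ x ∈ W0,
        B.dm (Matrix.single c a 1 - Matrix.single a c 1) * x -
          x * B.dm (Matrix.single c a 1 - Matrix.single a c 1) ∈ W0 := by
  let S := B.alpha Y
  let good : Set (Submodule ℝ (LevAlg d)) := {V | (∀ i, Pi.single i 1 ∈ V) ∧
    (∀ U, S.gen U ∈ V) ∧ ∀ U, ∀ w ∈ V, S.gen U * w - w * S.gen U ∈ V}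
  let W0 : Submodule ℝ (LevAlg d) := sInf good
  have hle : ∀ V ∈ good, W0 ≤ V := fun V hV => sInf_le hV
  have hW0 : W0 ∈ good := ⟨fun i => Submodule.mem_sInf.2 fun V hV => hV.1 i,
    fun U => Submodule.mem_sInf.2 fun V hV => hV.2.1 U,
    fun U w hw => Submodule.mem_sInf.2 fun V hV => hV.2.2 U w (hle V hV hw)⟩
  have hscal : ∀ (i : Fin L) (w : LevAlg d),
      (Pi.single i 1 : LevAlg d) * w - w * Pi.single i 1 = 0 := by
    intro i w
    funext j
    rcases eq_or_ne j i with rfl | hj
    · simp
    · simp [hj]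
  refine ⟨W0, hle W ⟨h1, h2, h3⟩, hW0.1, hW0.2.1, ?_, ?_⟩
  · let Nz : Submodule ℝ (LevAlg d) :=
      { carrier := {x | x ∈ W0 ∧ ∀ w ∈ W0, x * w - w * x ∈ W0}
        zero_mem' := ⟨W0.zero_mem, fun w _ => by simp⟩
        add_mem' := fun {x y} hx hy => ⟨W0.add_mem hx.1 hy.1, fun w hw => by
          have := W0.add_mem (hx.2 w hw) (hy.2 w hw)
          convert this using 1
          rw [add_mul, mul_add]; abel⟩
        smul_mem' := fun c x hx => ⟨W0.smul_mem c hx.1, fun w hw => by
          rw [smul_mul_assoc, mul_smul_comm, ← smul_sub]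
          exact W0.smul_mem c (hx.2 w hw)⟩ }
    have hN : Nz ∈ good := by
      refine ⟨fun i => ⟨hW0.1 i, fun w _ => by rw [hscal]; exact W0.zero_mem⟩,
        fun U => ⟨hW0.2.1 U, hW0.2.2 U⟩, fun U x hx => ⟨hW0.2.2 U x hx.1, fun w hw => ?_⟩⟩
      have := W0.sub_mem (hW0.2.2 U _ (hx.2 w hw)) (hx.2 _ (hW0.2.2 U w hw))
      convert this using 1
      simp only [mul_sub, sub_mul, ← mul_assoc]
      abel
    exact fun x hx y hy => (hle _ hN hx).2 y hy
  intro a c x hx
  rcases eq_or_ne a c with rfl | hac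
  · have : B.dm (Matrix.single a a 1 - Matrix.single a a 1) = 0 := by
      funext i
      refine B.dm_unique fun e => ?_
      simp [vf_apply]
    rw [this]
    simp
  have hconj : ∀ V : Orth N, ∀ w ∈ W0, S.R V * w * S.Ri V ∈ W0 := by
    intro V
    let f : LevAlg d →ₗ[ℝ] LevAlg d := LinearMap.mulRight ℝ (S.Ri V) ∘ₗ LinearMap.mulLeft ℝ (S.R V)
    have hl : S.Ri V * S.R V = 1 := funext fun i => S.left_inv V i
    have hr : S.R V * S.Ri V = 1 := funext fun i => S.right_inv V i
    have hmul : ∀ u v, f (u * v) = f u * f v := fun u v => by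
      simp only [f, LinearMap.coe_comp, Function.comp_apply, LinearMap.mulLeft_apply,
        LinearMap.mulRight_apply, mul_assoc]
      rw [← mul_assoc (S.Ri V) (S.R V), hl, one_mul]
    have hgen : ∀ U, f (S.gen U) = S.gen (V.mul U) := by
      intro U
      funext i
      simp only [f, S, alpha, Alpha.gen, LinearMap.coe_comp, Function.comp_apply,
        LinearMap.mulLeft_apply, LinearMap.mulRight_apply, Pi.mul_apply, Orth.mul,
        Matrix.transpose_mul, B.rotMat_mul V.2 U.2,
        B.rotMat_mul U.2.transpose V.2.transpose, Matrix.mul_assoc]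
    have hG : W0.comap f ∈ good := by
      refine ⟨fun i => ?_, fun U => ?_, fun U w hw => ?_⟩
      · have e : f (Pi.single i 1) = Pi.single i 1 := by
          simp only [f, LinearMap.coe_comp, Function.comp_apply, LinearMap.mulLeft_apply,
            LinearMap.mulRight_apply]
          rw [← sub_eq_zero.1 (hscal i (S.R V)), mul_assoc, hr, mul_one]
        rw [Submodule.mem_comap, e]
        exact hW0.1 i
      · rw [Submodule.mem_comap, hgen]
        exact hW0.2.1 _
      · rw [Submodule.mem_comap] at hw ⊢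
        rw [map_sub, hmul, hmul, hgen]
        exact hW0.2.2 _ _ hw
    exact fun w hw => hle _ hG hw
  let E : Matrix (Fin N) (Fin N) ℝ := Matrix.single c a 1 - Matrix.single a c 1
  have hEs : E.transpose = -E := by simp [E]
  have hd : ∀ (i : Fin L) (e e' : Fin (d i)),
      HasDerivAt (fun t => rotMat (B.b i) (planeRot a c t) e e') (-B.dm E i e e') 0 := by
    intro i e e'
    simpa [dm, vfMat, rotMat, E] using rot_linear_deriv hEs (by simp [planeRot])
      (hasDerivAt_planeRot a c) (B.b i e') ((LinearMap.proj e).comp (coordMap (B.b i)))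
  have hmem : -(B.dm E * x - x * B.dm E) ∈ W0 := by
    refine tangent_mem W0 (f := fun t => S.R ⟨_, isOrth_planeRot hac t⟩ * x *
      S.Ri ⟨_, isOrth_planeRot hac t⟩) ?_ fun t => hconj _ x hx
    intro i e e'
    have hneg : ∀ u v, HasDerivAt
        (fun t => rotMat (B.b i) (planeRot a c t).transpose u v) (B.dm E i u v) 0 := fun u v => by
      have h0 : HasDerivAt (fun t => rotMat (B.b i) (planeRot a c t) u v) (-B.dm E i u v)
          (-(0 : ℝ)) := by simpa using hd i u v
      simpa [Function.comp_def, transpose_planeRot] using h0.comp (0 : ℝ) (hasDerivAt_neg 0)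
    have hone : rotMat (B.b i) (planeRot a c 0) = 1 := by
      rw [show planeRot a c (0 : ℝ) = 1 by simp [planeRot], B.rotMat_one]
    have hone' : rotMat (B.b i) (planeRot a c 0).transpose = 1 := by
      rw [show planeRot a c (0 : ℝ) = 1 by simp [planeRot], Matrix.transpose_one, B.rotMat_one]
    have h1 : ∀ u, HasDerivAt (fun t => (rotMat (B.b i) (planeRot a c t) * x i) e u)
        ((-B.dm E i * x i) e u) 0 := fun u => by
      simp only [Matrix.mul_apply, Matrix.neg_apply]
      exact HasDerivAt.fun_sum fun v _ => (hd i e v).mul_const _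
    simp only [S, alpha, Pi.mul_apply]
    simp only [Matrix.mul_apply (N := rotMat (B.b i) (planeRot a c _).transpose)]
    have key : (-(B.dm E * x - x * B.dm E)) i e e' =
        ∑ u, ((-B.dm E i * x i) e u * rotMat (B.b i) (planeRot a c 0).transpose u e' +
          (rotMat (B.b i) (planeRot a c 0) * x i) e u * B.dm E i u e') := by
      rw [Finset.sum_add_distrib, ← Matrix.mul_apply, ← Matrix.mul_apply, hone, hone',
        Matrix.mul_one, Matrix.one_mul]
      simp [sub_eq_add_neg, Matrix.mul_apply, add_comm]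
    rw [key]
    exact HasDerivAt.fun_sum fun u _ => (h1 u).fun_mul (hneg u e')
  simpa using W0.neg_mem hmem

end HBasis

/-- The bases of `GenStmt`. -/
def ofEig {p : ℕ} {l d : Fin L → ℕ} {b : (i : Fin L) → Fin (d i) → Poly (amb p)}
    {q : (i : Fin L) → Fin (d i) → ℕ} (hb : ∀ i, IsEigBasis p (l i) (b i) (q i)) :
    HBasis (amb p) d :=
  ⟨l, b, fun i => (hb i).1, fun i => (hb i).2.1, fun i => (hb i).2.2.1⟩

/-- `GenStmt` follows from generation. -/
theorem genStmt_of_generates
    (H : ∀ (p L : ℕ) (l d : Fin L → ℕ) (b : (i : Fin L) → Fin (d i) → Poly (amb p))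
      (q : (i : Fin L) → Fin (d i) → ℕ) (c sh : Fin L → ℝ),
      3 ≤ p → Function.Injective l → (∀ i, 3 ≤ l i) →
      ∀ hb : ∀ i, IsEigBasis p (l i) (b i) (q i),
      (∀ i, 0 < c i) → (∀ i j, l i < l j → c j < c i) →
      ((ofEig hb).alpha fun i a => sh i - c i * (q i a : ℝ) ^ 2).Generates) : GenStmt := by
  intro p L l d b q c sh σ hp hl hl3 hb hc hcl
  obtain ⟨M, k, τ, γ, ε, hε, hmap, D, hD, hsurj⟩ :=
    ((ofEig hb).alpha fun i a => sh i - c i * (q i a : ℝ) ^ 2).exists_word
      (H p L l d b q c sh hp hl hl3 hb hc hcl) σ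
  exact ⟨M, fun m => (k m).1, _, _, τ, γ, ε, fun m => (k m).2,
    fun m i => (ofEig hb).isRotMatrix (k m).2 i,
    fun m i => ⟨(ofEig hb).rotMat_mul_transpose (k m).2 i, (ofEig hb).rotMat_transpose_mul (k m).2 i⟩,
    hε, hmap, D, hD, hsurj⟩

end

end Vale.Agent.P225.Gen
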