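import Vale.Agent.P225.Gen.Mono

/-!
# Isolation of a rank-one map on one level
-/

open MvPolynomial Finset

set_option maxSynthPendingDepth 3

namespace Vale.Agent.P225.Gen

variable {n L : ℕ}

/-- Families of endomorphisms of the harmonic forms of the degrees `l`. -/
abbrev Lev (n : ℕ) (l : Fin L → ℕ) := (j : Fin L) → Module.End ℂ (harm n (l j))

/-- A space of families closed under brackets and rotations, with the weighted seeds. -/
structure Closed {l : Fin L → ℕ} (c : Fin L → ℝ) (G : Submodule ℂ (Lev n l)) : Prop where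
  bracket : ∀ S ∈ G, ∀ T ∈ G, S * T - T * S ∈ G
  ad : ∀ i j, ∀ T ∈ G, (fun k => rotH (l k) i j) * T - T * (fun k => rotH (l k) i j) ∈ G
  seed : ∀ a b, a ≠ b → (fun k => (c k : ℂ) • (hH (l k) a * hH (l k) b)) ∈ G

/-- Families with vanishing traces. -/
noncomputable def tz (n : ℕ) (l : Fin L → ℕ) : Submodule ℂ (Lev n l) :=
  ⨅ j, LinearMap.ker (LinearMap.trace ℂ (harm n (l j)) ∘ₗ LinearMap.proj j)

theorem mem_tz {l : Fin L → ℕ} {T : Lev n l} :
    T ∈ tz n l ↔ ∀ j, LinearMap.trace ℂ (harm n (l j)) (T j) = 0 := by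
  simp [tz]

theorem commutator_mem_tz {l : Fin L → ℕ} (S T : Lev n l) : S * T - T * S ∈ tz n l := by
  refine mem_tz.2 fun j => ?_
  show LinearMap.trace ℂ (harm n (l j)) (S j * T j - T j * S j) = 0
  rw [map_sub, LinearMap.trace_mul_comm, sub_self]

theorem bracket_smul {R : Type*} [Ring R] [Algebra ℂ R] (r : ℂ) (a b : R) :
    a * (r • b) - (r • b) * a = r • (a * b - b * a) := by
  rw [mul_smul_comm, smul_mul_assoc, smul_sub]

theorem isolation_step {R : Type*} [Ring R] [Algebra ℂ R] {ha hb A Q : R} {w s r : ℂ}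
    (hw : w ≠ 0) (h1 : ha * A - A * ha = w • A) (h2 : hb * A - A * hb = 0)
    (h3 : Commute ha Q) (h4 : Commute hb Q) :
    s • (A * (s • (hb * Q) - r • Q)) =
      w⁻¹ • (s • (ha * hb) * (s • (A * Q)) - s • (A * Q) * (s • (ha * hb))) - r • (s • (A * Q)) := by
  have e : ha * hb * (A * Q) - A * Q * (ha * hb) = w • (A * (hb * Q)) := by
    have q : Q * (ha * hb) = ha * (hb * Q) := by
      rw [← mul_assoc Q ha, ← h3.eq, mul_assoc ha Q, ← h4.eq]
    have : ha * hb * (A * Q) = ha * A * (hb * Q) := by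
      rw [mul_assoc ha hb, ← mul_assoc hb A, sub_eq_zero.1 h2, mul_assoc A hb Q, ← mul_assoc]
    rw [this, mul_assoc A Q, q, ← mul_assoc A ha, ← sub_mul, h1, smul_mul_assoc]
  simp only [mul_smul_comm, smul_mul_assoc, smul_smul, ← smul_sub]
  rw [e, smul_smul, mul_sub, mul_smul_comm, mul_smul_comm, smul_sub, smul_smul, smul_smul,
    mul_comm r s]
  congr 2
  field_simp

variable {l : Fin L → ℕ} {c : Fin L → ℝ} {G : Submodule ℂ (Lev n l)}

theorem Aop_mem (hG : Closed c G) {i x y : Idx n} (hix : plane i ≠ plane x)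
    (hiy : plane i ≠ plane y) (hxy : plane x ≠ plane y) :
    (fun k => (c k : ℂ) • Aop (l k) i x y) ∈ G ⊓ tz n l := by
  have h1 := hG.ad i x _ (hG.seed _ _ hxy)
  have h2 := hG.ad i y _ h1
  have h3 := Submodule.mem_inf.2 ⟨hG.ad x.swap y.swap _ h2, commutator_mem_tz _ _⟩
  refine (Submodule.smul_mem_iff (G ⊓ tz n l) (mul_ne_zero (sgn_ne_zero x) (sgn_ne_zero y))).1 ?_
  convert h3 using 1
  funext k
  show (sgn x * sgn y) • ((c k : ℂ) • Aop (l k) i x y) = _
  rw [smul_comm, ← Aop_eq (l k) hix hiy hxy]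
  simp only [Pi.sub_apply, Pi.mul_apply]
  rw [bracket_smul (R := Module.End ℂ (harm n (l k))),
    bracket_smul (R := Module.End ℂ (harm n (l k))),
    bracket_smul (R := Module.End ℂ (harm n (l k)))]

/-- A family of multipliers realised to the right of `Aop`. -/
def Good (c : Fin L → ℝ) (G : Submodule ℂ (Lev n l)) (i x y : Idx n)
    (g : Fin L → (Idx n →₀ ℕ) → ℂ) : Prop :=
  ∃ Q : Lev n l, (fun k => (c k : ℂ) • (Aop (l k) i x y * Q k)) ∈ G ⊓ tz n l ∧
    (∀ k b, Commute (hH (l k) b) (Q k)) ∧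
    ∀ k (P : harm n (l k)) (m : Idx n →₀ ℕ),
      coeff m (Q k P : Pol n) = g k m * coeff m (P : Pol n)

theorem good_one (hG : Closed c G) {i x y : Idx n} (hix : plane i ≠ plane x)
    (hiy : plane i ≠ plane y) (hxy : plane x ≠ plane y) : Good c G i x y fun _ _ => 1 := by
  refine ⟨fun _ => 1, ?_, fun k b => Commute.one_right _, fun k P m => by simp⟩
  simpa only [mul_one] using Aop_mem hG hix hiy hxy

theorem good_step (hG : Closed c G) {i x y : Idx n} {g : Fin L → (Idx n →₀ ℕ) → ℂ}
    (hg : Good c G i x y g) {b : Fin n} (hb : b ≠ plane i) (r : ℂ) :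
    Good c G i x y fun k m => ((c k : ℂ) * mw b m - r) * g k m := by
  obtain ⟨Q, hQ, hc, hm⟩ := hg
  refine ⟨fun k => (c k : ℂ) • (hH (l k) b * Q k) - r • Q k, ?_, fun k b' => ?_, fun k P m => ?_⟩
  · have hS := hG.seed _ _ hb.symm
    have hST := Submodule.mem_inf.2 ⟨hG.bracket _ hS _ (Submodule.mem_inf.1 hQ).1,
      commutator_mem_tz _ _⟩
    have := (G ⊓ tz n l).sub_mem
      ((G ⊓ tz n l).smul_mem (2 * sgn i)⁻¹ hST) ((G ⊓ tz n l).smul_mem r hQ)
    convert this using 1
    funext k
    refine isolation_step (R := Module.End ℂ (harm n (l k)))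
      (mul_ne_zero two_ne_zero (sgn_ne_zero i)) ?_ ?_ (hc k _) (hc k _)
    · rw [hH_Aop, wt_self]
    · rw [hH_Aop, wt_of_ne hb.symm, mul_zero, zero_smul]
  · exact (((hH_commute (l k) b' b).mul_right (hc k b')).smul_right _).sub_right
      ((hc k b').smul_right _)
  · simp [coeff_hH, hm]
    ring

theorem good_prod (hG : Closed c G) {i x y : Idx n} (hix : plane i ≠ plane x)
    (hiy : plane i ≠ plane y) (hxy : plane x ≠ plane y) (S : Finset (Fin n × ℂ)) :
    (∀ br ∈ S, br.1 ≠ plane i) →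
      Good c G i x y fun k m => ∏ br ∈ S, ((c k : ℂ) * mw br.1 m - br.2) := by
  classical
  induction S using Finset.induction with
  | empty => intro _; simpa using good_one hG hix hiy hxy
  | insert br S hbr ih =>
    intro h
    have := good_step hG (ih fun z hz => h z (mem_insert_of_mem hz)) (h br (mem_insert_self _ _)) br.2
    simpa [Finset.prod_insert hbr] using this

/-- Higher levels can be removed. -/
theorem single_mem_of_vanish (t : Fin L) (hl : Function.Injective l)
    (hup : ∀ j, l t < l j → ∀ T, LinearMap.trace ℂ (harm n (l j)) T = 0 → Pi.single j T ∈ G)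
    {T : Lev n l} (hT : T ∈ G ⊓ tz n l) (h0 : ∀ j, l j < l t → T j = 0) :
    Pi.single t (T t) ∈ G := by
  classical
  have e : Pi.single t (T t) = T - ∑ j ∈ univ.erase t, Pi.single j (T j) := by
    have := (Finset.add_sum_erase univ (fun j => Pi.single j (T j)) (mem_univ t)).trans
      (Finset.univ_sum_single T)
    exact eq_sub_of_add_eq this
  rw [e]
  refine G.sub_mem (Submodule.mem_inf.1 hT).1 (G.sum_mem fun j hj => ?_)
  rcases lt_or_gt_of_ne (hl.ne (ne_of_mem_erase hj)) with h | h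
  · rw [h0 j h, Pi.single_zero]; exact G.zero_mem
  · exact hup j h _ (mem_tz.1 (Submodule.mem_inf.1 hT).2 j)

theorem rk_isolate (hG : Closed c G) (hl : Function.Injective l) (hl2 : ∀ j, 2 ≤ l j)
    (hc0 : ∀ j, 0 < c j) (hc : ∀ i j, l i < l j → c j < c i) (t : Fin L)
    (hup : ∀ j, l t < l j → ∀ T, LinearMap.trace ℂ (harm n (l j)) T = 0 → Pi.single j T ∈ G)
    {i0 i k y : Idx n} (F : Frame i0 i k y) :
    Pi.single t (rk (vec (l t) (mono (l t) i0 i k)) (cf (l t) (mono (l t) i0 i.swap k))) ∈ G := by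
  classical
  set mu := mono (l t) i0 i.swap k
  set mv := mono (l t) i0 i k
  let vals : Finset ℂ :=
    univ.biUnion fun j => (Finset.Icc (-(l j : ℤ)) (l j)).image fun z : ℤ => (c j : ℂ) * z
  let S : Finset (Fin n × ℂ) :=
    ((univ.erase (plane i)) ×ˢ vals).filter fun br => br.2 ≠ (c t : ℂ) * mw br.1 mu
  obtain ⟨Q, hQ, -, hm⟩ := good_prod hG F.hik F.hiy F.hky S
    (fun br hbr => ne_of_mem_erase (mem_product.1 (mem_filter.1 hbr).1).1)
  set g : Fin L → (Idx n →₀ ℕ) → ℂ := fun j m => ∏ br ∈ S, ((c j : ℂ) * mw br.1 m - br.2)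
  have hg : ∀ j m, m.degree = l j → g j m ≠ 0 →
      ∀ b, b ≠ plane i → c j * (mw b m : ℝ) = c t * (mw b mu : ℝ) := by
    intro j m hd hne b hb
    by_contra hbad
    refine hne (Finset.prod_eq_zero (i := (b, (c j : ℂ) * mw b m)) ?_ (by simp))
    simp only [S, vals, mem_filter, mem_product, mem_erase, mem_univ, and_true, mem_biUnion,
      mem_image, mem_Icc, true_and]
    refine ⟨⟨hb, j, mw b m, ?_, rfl⟩, fun e => hbad ?_⟩
    · have := mw_le (b := b) hd
      omega
    · exact_mod_cast e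
  obtain ⟨b1, b2, b3, b4⟩ := ne_of_plane F.h0k
  obtain ⟨d1, d2, d3, d4⟩ := ne_of_plane F.hik
  have hmuk : mw (plane k) mu = if k = Sum.inl (plane k) then 1 else -1 := by
    cases k with
    | inl a => simp [mw, mu, mono, plane] at b1 b2 d3 d4 ⊢; simp [b1, b2, d3, d4]
    | inr a => simp [mw, mu, mono, plane] at b1 b2 d3 d4 ⊢; simp [b1, b2, d3, d4]
  have hlow : ∀ j, l j < l t → Q j = 0 := by
    intro j hj
    refine LinearMap.ext fun P => Subtype.ext ?_
    ext m
    rw [hm]
    simp only [LinearMap.zero_apply, ZeroMemClass.coe_zero, coeff_zero]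
    by_cases hd : m.degree = l j
    · refine mul_eq_zero_of_left ?_ _
      by_contra hne
      have e := hg j m hd hne (plane k) F.hik.symm
      rw [hmuk] at e
      have h1 := hc j t hj
      have h2 := hc0 t
      have e' : c j * |(mw (plane k) m : ℝ)| = c t := by
        rw [← abs_of_pos (hc0 j), ← abs_mul, e, abs_mul, abs_of_pos h2]
        split_ifs <;> simp
      rcases eq_or_ne (mw (plane k) m) 0 with hz | hz
      · rw [hz] at e'; simp at e'; linarith
      · have h3 : (1 : ℝ) ≤ |(mw (plane k) m : ℝ)| := by exact_mod_cast Int.one_le_abs hz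
        nlinarith
    · rw [coeff_zero_of_degree P hd, mul_zero]
  have hT0 : ∀ j, l j < l t → (c j : ℂ) • (Aop (l j) i k y * Q j) = 0 := fun j hj => by
    rw [hlow j hj, mul_zero]; exact smul_zero _
  have hmem := single_mem_of_vanish t hl hup hQ hT0
  have hdu : mu.degree = l t := degree_mono (hl2 t) _ _ _
  have hdv : mv.degree = l t := degree_mono (hl2 t) _ _ _
  have hN : g t mu ≠ 0 := Finset.prod_ne_zero_iff.2 fun br hbr =>
    sub_ne_zero.2 (Ne.symm (mem_filter.1 hbr).2)
  have hsupp : ∀ m, m.degree = l t → g t m ≠ 0 → m = mu ∨ m = mv := fun m hd hne =>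
    eq_mono_of_mw (hl2 t) F hd fun b hb => by
      have := hg t m hd hne b hb
      exact_mod_cast mul_left_cancel₀ (hc0 t).ne' this
  have hne : mu ≠ mv := by
    intro e
    obtain ⟨a1, a2, a3, a4⟩ := ne_of_plane F.h0i
    have := DFunLike.congr_fun e i
    simp [mu, mv, mono, a1, idx_ne_swap i, Ne.symm d1] at this
  have hu : monomial mu (1 : ℂ) ∈ harm n (l t) :=
    monomial_mem_harm (hl2 t) (by rw [plane_swap]; exact F.h0i) F.h0k
      (by rw [plane_swap]; exact F.hik)
  have hv : monomial mv (1 : ℂ) ∈ harm n (l t) := monomial_mem_harm (hl2 t) F.h0i F.h0k F.hik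
  have hQt : ∀ P : harm n (l t), Q t P = (g t mu * coeff mu (P : Pol n)) • vec (l t) mu +
      (g t mv * coeff mv (P : Pol n)) • vec (l t) mv := by
    intro P
    refine Subtype.ext ?_
    ext m
    simp only [hm, Submodule.coe_add, Submodule.coe_smul, vec_coe hu, vec_coe hv, coeff_add,
      coeff_smul, coeff_monomial, smul_eq_mul]
    rcases eq_or_ne m mu with rfl | h1
    · simp [hne.symm]
    rcases eq_or_ne m mv with rfl | h2
    · simp [hne]
    simp only [h1.symm, h2.symm, if_false, mul_zero, add_zero]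
    by_cases hd : m.degree = l t
    · refine mul_eq_zero_of_left ?_ _
      by_contra hgm
      rcases hsupp m hd hgm with e | e
      · exact h1 e
      · exact h2 e
    · rw [coeff_zero_of_degree P hd, mul_zero]
  have hA : (c t : ℂ) • (Aop (l t) i k y * Q t) =
      (-((c t : ℂ) * g t mu)) • rk (vec (l t) mv) (cf (l t) mu) := by
    refine LinearMap.ext fun P => ?_
    obtain ⟨eu, ev⟩ := Aop_mono F (hl2 t)
    simp only [LinearMap.smul_apply, Module.End.mul_apply, hQt, map_add, map_smul, rk_apply,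
      cf_apply, LinearMap.neg_apply, mu, mv, eu, ev, smul_zero, add_zero, smul_neg, neg_smul, smul_smul, mul_assoc]
  rw [hA, Pi.single_smul] at hmem
  exact (Submodule.smul_mem_iff G
    (neg_ne_zero.2 (mul_ne_zero (by exact_mod_cast (hc0 t).ne') hN))).1 hmem

end Vale.Agent.P225.Gen
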