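import Mathlib

/-!
# Recognition of the trace-zero endomorphisms

A space of endomorphisms that is closed under commutators and under commutators with a family of
operators, and contains a few rank-one maps, contains every trace-zero endomorphism, provided the
family acts cyclically on the vectors and on the forms in question.
-/

namespace Vale.Agent.P225.Gen

variable {V : Type*} [AddCommGroup V] [Module ℂ V]

/-- The rank-one map `y ↦ φ y • x`. -/
def rk (x : V) (φ : Module.Dual ℂ V) : Module.End ℂ V := φ.smulRight x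

@[simp]
theorem rk_apply (x : V) (φ : Module.Dual ℂ V) (y : V) : rk x φ y = φ y • x := rfl

theorem rk_bracket (a b : V) (φ ψ : Module.Dual ℂ V) :
    rk a φ * rk b ψ - rk b ψ * rk a φ = φ b • rk a ψ - ψ a • rk b φ := by
  ext y; simp [smul_smul, mul_comm]

theorem rk_ad (T : Module.End ℂ V) (x : V) (φ : Module.Dual ℂ V) :
    T * rk x φ - rk x φ * T = rk (T x) φ - rk x (φ ∘ₗ T) := by
  ext y; simp

theorem rk_sub_left (a b : V) (φ : Module.Dual ℂ V) : rk (a - b) φ = rk a φ - rk b φ := by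
  ext y; simp [smul_sub]

theorem rk_smul_left (c : ℂ) (a : V) (φ : Module.Dual ℂ V) : rk (c • a) φ = c • rk a φ := by
  ext y; simp [smul_smul, mul_comm]

theorem rk_add_left (a b : V) (φ : Module.Dual ℂ V) : rk (a + b) φ = rk a φ + rk b φ := by
  ext y; simp [smul_add]

theorem rk_sub_right (a : V) (φ ψ : Module.Dual ℂ V) : rk a (φ - ψ) = rk a φ - rk a ψ := by
  ext y; simp [sub_smul]

theorem rk_smul_right (c : ℂ) (a : V) (φ : Module.Dual ℂ V) : rk a (c • φ) = c • rk a φ := by
  ext y; simp [smul_smul]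

/-- The data of the recognition lemma. -/
structure Seeded (V : Type*) [AddCommGroup V] [Module ℂ V] (ι O : Type*) where
  A : Submodule ℂ (Module.End ℂ V)
  op : ι → Module.End ℂ V
  e : O → V
  f : O → Module.Dual ℂ V
  bracket : ∀ S ∈ A, ∀ T ∈ A, S * T - T * S ∈ A
  ad : ∀ k, ∀ T ∈ A, op k * T - T * op k ∈ A
  dual_self : ∀ o, f o (e o) = 1
  dual_ne : ∀ o o', o ≠ o' → f o (e o') = 0
  seed : ∀ o o', o ≠ o' → rk (e o) (f o') ∈ A
  third : ∀ o o' : O, ∃ z, z ≠ o ∧ z ≠ o'

namespace Seeded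

variable {ι O : Type*} (S : Seeded V ι O)

theorem diag_mem (o o' : O) : rk (S.e o) (S.f o) - rk (S.e o') (S.f o') ∈ S.A := by
  rcases eq_or_ne o o' with rfl | h
  · simp
  have := S.bracket _ (S.seed o o' h) _ (S.seed o' o h.symm)
  rwa [rk_bracket, S.dual_self, S.dual_self, one_smul, one_smul] at this

theorem step {x : V} {k : ι} {y z : O} (hyz : y ≠ z) (hz : S.f z x = 0)
    (hxy : rk x (S.f y) ∈ S.A) (hxz : rk x (S.f z) ∈ S.A) :
    rk (S.op k x - S.f z (S.op k x) • S.e z) (S.f z) ∈ S.A := by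
  have h1 := S.ad k _ hxy
  rw [rk_ad] at h1
  have h2 := S.bracket _ h1 _ (S.seed y z hyz)
  have e : (rk (S.op k x) (S.f y) - rk x (S.f y ∘ₗ S.op k)) * rk (S.e y) (S.f z) -
      rk (S.e y) (S.f z) * (rk (S.op k x) (S.f y) - rk x (S.f y ∘ₗ S.op k)) =
      rk (S.op k x) (S.f z) - S.f z (S.op k x) • rk (S.e y) (S.f y)
        - S.f y (S.op k (S.e y)) • rk x (S.f z) := by
    ext v; simp [hz, S.dual_self, sub_mul, mul_sub, smul_smul, mul_comm]
    abel
  rw [e] at h2
  have h3 := S.A.add_mem (S.A.add_mem h2 (S.A.smul_mem (S.f y (S.op k (S.e y))) hxz))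
    (S.A.smul_mem (S.f z (S.op k x)) (S.diag_mem y z))
  have e2 : rk (S.op k x - S.f z (S.op k x) • S.e z) (S.f z) =
      rk (S.op k x) (S.f z) - S.f z (S.op k x) • rk (S.e y) (S.f y)
        - S.f y (S.op k (S.e y)) • rk x (S.f z) + S.f y (S.op k (S.e y)) • rk x (S.f z)
        + S.f z (S.op k x) • (rk (S.e y) (S.f y) - rk (S.e z) (S.f z)) := by
    rw [rk_sub_left, rk_smul_left, smul_sub]; abel
  rw [e2]; exact h3

theorem op_e_mem (k : ι) (o z : O) :
    rk (S.op k (S.e o) - S.f z (S.op k (S.e o)) • S.e z) (S.f z) ∈ S.A := by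
  rcases eq_or_ne o z with rfl | hoz
  · obtain ⟨w, hw, -⟩ := S.third o o
    obtain ⟨y, hyo, hyw⟩ := S.third o w
    have h1 := S.step (k := k) hyw (S.dual_ne w o hw) (S.seed o y hyo.symm) (S.seed o w hw.symm)
    have h2 := S.bracket _ h1 _ (S.seed w o hw)
    rw [rk_bracket] at h2
    set T := S.op k (S.e o)
    have e : rk (T - S.f o T • S.e o) (S.f o) =
        (S.f w (S.e w) • rk (T - S.f w T • S.e w) (S.f o) -
          S.f o (T - S.f w T • S.e w) • rk (S.e w) (S.f w))
        + S.f w T • rk (S.e w) (S.f o)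
        + S.f o T • (rk (S.e w) (S.f w) - rk (S.e o) (S.f o)) := by
      simp only [S.dual_self, one_smul, map_sub, map_smul, S.dual_ne o w hw.symm, smul_eq_mul,
        mul_zero, sub_zero, rk_sub_left, rk_smul_left, smul_sub]
      abel
    rw [e]
    exact S.A.add_mem (S.A.add_mem h2 (S.A.smul_mem _ (S.seed w o hw)))
      (S.A.smul_mem _ (S.diag_mem w o))
  · obtain ⟨y, hyo, hyz⟩ := S.third o z
    exact S.step hyz (S.dual_ne z o hoz.symm) (S.seed o y hyo.symm) (S.seed o z hoz)

/-- The vectors whose columns at every seed lie in `A`. -/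
def cols : Submodule ℂ V where
  carrier := {x | ∀ z, rk (x - S.f z x • S.e z) (S.f z) ∈ S.A}
  add_mem' := by
    intro a b ha hb z
    have := S.A.add_mem (ha z) (hb z)
    convert this using 1
    rw [← rk_add_left]; congr 1; simp [add_smul]; abel
  zero_mem' := by intro z; simp [rk]
  smul_mem' := by
    intro c a ha z
    have := S.A.smul_mem c (ha z)
    convert this using 1
    ext v; simp [smul_sub, smul_smul]; module

theorem e_mem_cols (o : O) : S.e o ∈ S.cols := by
  intro z
  rcases eq_or_ne z o with rfl | h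
  · simp [S.dual_self, rk]
  · rw [S.dual_ne z o h]; simpa using S.seed o z h.symm

theorem op_mem_cols [Fintype O] (k : ι) {x : V} (hx : x ∈ S.cols) : S.op k x ∈ S.cols := by
  classical
  set x0 : V := x - ∑ o, S.f o x • S.e o
  have hx0 : x0 ∈ S.cols := S.cols.sub_mem hx
    (S.cols.sum_mem fun o _ => S.cols.smul_mem _ (S.e_mem_cols o))
  have hf : ∀ z, S.f z x0 = 0 := by
    intro z
    simp only [x0, map_sub, map_sum, map_smul, smul_eq_mul]
    rw [Finset.sum_eq_single z (fun o _ ho => by simp [S.dual_ne z o ho.symm]) (by simp)]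
    simp [S.dual_self]
  have h0 : ∀ z, rk x0 (S.f z) ∈ S.A := by
    intro z; simpa [hf z] using hx0 z
  have hk0 : S.op k x0 ∈ S.cols := by
    intro z
    obtain ⟨y, hy, -⟩ := S.third z z
    exact S.step hy (hf z) (h0 y) (h0 z)
  have : S.op k x = S.op k x0 + ∑ o, S.f o x • S.op k (S.e o) := by
    simp [x0, map_sub, map_sum]
  rw [this]
  exact S.cols.add_mem hk0
    (S.cols.sum_mem fun o _ => S.cols.smul_mem _ fun z => S.op_e_mem k o z)

/-- The seeded data on the dual space, through transposition. -/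
noncomputable def flip : Seeded (Module.Dual ℂ V) ι O where
  A := S.A.map (Module.Dual.transpose (R := ℂ) (M := V) (M' := V))
  op k := (S.op k).dualMap
  e := S.f
  f o := Module.Dual.eval ℂ V (S.e o)
  bracket := by
    rintro _ ⟨P, hP, rfl⟩ _ ⟨Q, hQ, rfl⟩
    refine ⟨Q * P - P * Q, S.bracket Q hQ P hP, ?_⟩
    ext φ v; simp [Module.Dual.transpose_apply]
  ad := by
    rintro k _ ⟨P, hP, rfl⟩
    refine ⟨-(S.op k * P - P * S.op k), S.A.neg_mem (S.ad k P hP), ?_⟩
    ext φ v; simp [Module.Dual.transpose_apply]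
  dual_self := S.dual_self
  dual_ne o o' h := S.dual_ne o' o h.symm
  seed o o' h := by
    refine ⟨rk (S.e o') (S.f o), S.seed o' o h.symm, ?_⟩
    ext φ v; simp [Module.Dual.transpose_apply, mul_comm]
  third := S.third

/-- The recognition lemma. -/
theorem trace_zero_mem [FiniteDimensional ℂ V] [Fintype O] [Nonempty O]
    (hcyc : ∀ W : Submodule ℂ V, (∀ o, S.e o ∈ W) → (∀ k, ∀ x ∈ W, S.op k x ∈ W) → W = ⊤)
    (hcyc' : ∀ W : Submodule ℂ (Module.Dual ℂ V), (∀ o, S.f o ∈ W) →
      (∀ k, ∀ φ ∈ W, φ ∘ₗ S.op k ∈ W) → W = ⊤)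
    (T : Module.End ℂ V) (hT : LinearMap.trace ℂ V T = 0) : T ∈ S.A := by
  obtain ⟨z⟩ := ‹Nonempty O›
  have hc : ∀ x : V, rk (x - S.f z x • S.e z) (S.f z) ∈ S.A := fun x => by
    have h := hcyc S.cols S.e_mem_cols (fun k x hx => S.op_mem_cols k hx)
    exact (h ▸ Submodule.mem_top : x ∈ S.cols) z
  have hr : ∀ φ : Module.Dual ℂ V, rk (S.e z) (φ - φ (S.e z) • S.f z) ∈ S.A := fun φ => by
    have h := hcyc' S.flip.cols S.flip.e_mem_cols (fun k φ hφ => S.flip.op_mem_cols k hφ)
    obtain ⟨P, hP, hPe⟩ := (h ▸ Submodule.mem_top : φ ∈ S.flip.cols) z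
    have : P = rk (S.e z) (φ - φ (S.e z) • S.f z) := by
      ext v
      refine sub_eq_zero.1 ((Module.forall_dual_apply_eq_zero_iff ℂ _).1 fun ψ => ?_)
      have := LinearMap.congr_fun (LinearMap.congr_fun hPe ψ) v
      simp [flip, Module.Dual.transpose_apply] at this
      simp [map_sub, this]
      ring
    rwa [← this]
  have key : ∀ (x : V) (φ : Module.Dual ℂ V),
      rk x φ - φ x • rk (S.e z) (S.f z) ∈ S.A := by
    intro x φ
    have h := S.bracket _ (hc x) _ (hr φ)
    rw [rk_bracket, S.dual_self, one_smul] at h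
    have := S.A.add_mem (S.A.add_mem h (S.A.smul_mem (φ (S.e z)) (hc x)))
      (S.A.smul_mem (S.f z x) (hr φ))
    convert this using 1
    ext v
    simp [S.dual_self, smul_sub, sub_smul, smul_smul]
    module
  let bs := Module.finBasis ℂ V
  have hT' : T = ∑ i, rk (T (bs i)) (bs.coord i) := by
    refine bs.ext fun j => ?_
    simp [Finsupp.single_apply]
  have htr : ∑ i, bs.coord i (T (bs i)) = 0 := by
    rw [← hT, LinearMap.trace_eq_matrix_trace ℂ bs, Matrix.trace]
    simp [LinearMap.toMatrix_apply]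
  have := S.A.sum_mem (t := Finset.univ) fun i _ => key (T (bs i)) (bs.coord i)
  rw [Finset.sum_sub_distrib, ← Finset.sum_smul, htr, zero_smul, sub_zero, ← hT'] at this
  exact this

end Seeded

end Vale.Agent.P225.Gen
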