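import Vale.Agent.P225.Gen.Complex
import Vale.Agent.P225.Gen.Deriv

/-!
# P225: proof of `GenStmt`
-/

namespace Vale.Agent.P225

/-- Some word reaches the signed permutations, with surjective derivative. -/
theorem gen_ok : GenStmt := by
  refine Gen.genStmt_of_generates fun p L l d b q c sh hp hl hl3 hb hc hcl W h1 h2 h3 => ?_
  set B := Gen.ofEig hb
  obtain ⟨W0, hle, k1, k2, k3, k4⟩ :=
    B.exists_closed (fun i a => sh i - c i * (q i a : ℝ) ^ 2) W h1 h2 h3
  refine top_unique ((top_of_closed (sh := sh) hp hl hl3 hb hc hcl W0 k1 ?_ k3 ?_).symm.le.trans hle)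
  · intro U R Ri hU hR hRR
    have e : ∀ i, Gen.rotMat (b i) U = R i := fun i => B.rotMat_unique (hR i)
    have e' : ∀ i, Gen.rotMat (b i) U.transpose = Ri i := fun i =>
      left_inv_eq_right_inv (B.rotMat_transpose_mul hU i) (by
        show Gen.rotMat (b i) U * Ri i = 1
        rw [e i]; exact (hRR i).1)
    have h := k2 ⟨U, hU⟩
    convert h using 1
    funext i
    show _ = Gen.rotMat (b i) U * Matrix.diagonal _ * Gen.rotMat (b i) U.transpose
    rw [e i, e' i]
    rfl
  · intro a e Dm hDm x hx
    have : B.dm (planeMat a e) = Dm := funext fun i => B.dm_unique fun k => by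
      rw [← xi_eq_vf]; exact hDm i k
    rw [← this]
    exact k4 a e x hx

end Vale.Agent.P225
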