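import Vale.Agent.P225.Gen.Weights
import Vale.Agent.P225.Gen.Level

/-!
# The extremal monomials and the action of the second order element on them
-/

open MvPolynomial Finset

namespace Vale.Agent.P225.Gen

variable {n : ℕ}

/-- The exponent of `x_{i0}^(D - 2) x_i x_k`. -/
noncomputable def mono (D : ℕ) (i0 i k : Idx n) : Idx n →₀ ℕ :=
  Finsupp.single i0 (D - 2) + Finsupp.single i 1 + Finsupp.single k 1

theorem mono_comm (D : ℕ) (i0 i k : Idx n) : mono D i0 i k = mono D i0 k i := by
  simp only [mono, add_right_comm]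

theorem mono_eq_prod (D : ℕ) (i0 i k : Idx n) :
    monomial (mono D i0 i k) (1 : ℂ) = X i0 ^ (D - 2) * (X i * X k) := by
  simp [mono, X, monomial_pow, monomial_mul, add_assoc]

theorem degree_mono {D : ℕ} (hD : 2 ≤ D) (i0 i k : Idx n) : (mono D i0 i k).degree = D := by
  rw [mono, map_add, map_add, Finsupp.degree_single, Finsupp.degree_single, Finsupp.degree_single]
  omega

theorem idx_ne_swap (i : Idx n) : i ≠ i.swap := by cases i <;> simp

/-- The three planes of the extremal monomials and a spare one. -/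
structure Frame (i0 i k y : Idx n) : Prop where
  h0i : plane i0 ≠ plane i
  h0k : plane i0 ≠ plane k
  h0y : plane i0 ≠ plane y
  hik : plane i ≠ plane k
  hiy : plane i ≠ plane y
  hky : plane k ≠ plane y

theorem monomial_mem_harm {D : ℕ} (hD : 2 ≤ D) {i0 i k : Idx n} (h0i : plane i0 ≠ plane i)
    (h0k : plane i0 ≠ plane k) (hik : plane i ≠ plane k) :
    monomial (mono D i0 i k) (1 : ℂ) ∈ harm n D := by
  refine mem_harm.2 ⟨isHomogeneous_monomial _ (degree_mono hD _ _ _), ?_⟩
  rw [lap_apply]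
  refine Finset.sum_eq_zero fun a _ => ?_
  rw [pderiv_monomial, pderiv_monomial]
  have h : mono D i0 i k (.inl a) = 0 ∨ mono D i0 i k (.inr a) = 0 := by
    by_cases e0 : plane i0 = a
    · obtain rfl := e0
      obtain ⟨e1, e2, e3, e4⟩ := ne_of_plane h0i
      obtain ⟨f1, f2, f3, f4⟩ := ne_of_plane h0k
      have hz : mono D i0 i k i0.swap = 0 := by
        simp [mono, (idx_ne_swap i0), Ne.symm e3, Ne.symm f3]
      cases i0 <;> simp [plane] at hz ⊢ <;> simp [hz]
    · by_cases e1 : plane i = a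
      · obtain rfl := e1
        obtain ⟨g1, g2, g3, g4⟩ := ne_of_plane hik
        obtain ⟨e1, e2, e3, e4⟩ := ne_of_plane h0i
        have hz : mono D i0 i k i.swap = 0 := by
          simp [mono, (idx_ne_swap i), e2, Ne.symm g3]
        cases i <;> simp [plane] at hz ⊢ <;> simp [hz]
      · by_cases e2 : plane k = a
        · obtain rfl := e2
          obtain ⟨g1, g2, g3, g4⟩ := ne_of_plane hik
          obtain ⟨f1, f2, f3, f4⟩ := ne_of_plane h0k
          have hz : mono D i0 i k k.swap = 0 := by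
            simp [mono, (idx_ne_swap k), g2, f2]
          cases k <;> simp [plane] at hz ⊢ <;> simp [hz]
        · left
          have ne : ∀ z : Idx n, plane z ≠ a → z ≠ Sum.inl a := fun z h e => h (by rw [e]; rfl)
          simp [mono, ne _ e0, ne _ e1, ne _ e2]
  rcases h with h | h
  · rcases eq_or_ne (mono D i0 i k (.inr a)) 0 with h' | h'
    · simp [h']
    · simp [h]
  · simp [h]

theorem coeff_zero_of_degree {D : ℕ} (P : harm n D) {m : Idx n →₀ ℕ} (hm : m.degree ≠ D) :
    coeff m (P : Pol n) = 0 :=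
  (mem_harm.1 P.2).1.coeff_eq_zero hm

open Classical in
/-- A monomial as a harmonic form. -/
noncomputable def vec (D : ℕ) (m : Idx n →₀ ℕ) : harm n D :=
  if h : monomial m (1 : ℂ) ∈ harm n D then ⟨_, h⟩ else 0

theorem vec_coe {D : ℕ} {m : Idx n →₀ ℕ} (h : monomial m (1 : ℂ) ∈ harm n D) :
    (vec D m : Pol n) = monomial m 1 := by
  simp [vec, h]

/-- A coefficient as a linear form. -/
noncomputable def cf (D : ℕ) (m : Idx n →₀ ℕ) : Module.Dual ℂ (harm n D) :=
  (lcoeff ℂ m).comp (harm n D).subtype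

@[simp]
theorem cf_apply (D : ℕ) (m : Idx n →₀ ℕ) (P : harm n D) : cf D m P = coeff m (P : Pol n) := rfl

theorem rot_pow_mul {i j z : Idx n} (e : ℕ) (h1 : z ≠ j.swap) (h2 : z ≠ i.swap) (a b : Idx n) :
    rot i j ((X z : Pol n) ^ e * (X a * X b)) =
      X z ^ e * (rot i j (X a) * X b + X a * rot i j (X b)) := by
  have h0 : rot i j (X z : Pol n) = 0 := by rw [rot_X]; simp [h1, h2]
  simp [Derivation.leibniz, Derivation.leibniz_pow, h0]
  ring

theorem Aop_mono {D : ℕ} {i0 i k y : Idx n} (F : Frame i0 i k y) (hD : 2 ≤ D) :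
    Aop D i k y (vec D (mono D i0 i.swap k)) = -vec D (mono D i0 i k) ∧
      Aop D i k y (vec D (mono D i0 i k)) = 0 := by
  have h1 : plane i0 ≠ plane i.swap := by rw [plane_swap]; exact F.h0i
  have h2 : plane i.swap ≠ plane k := by rw [plane_swap]; exact F.hik
  obtain ⟨a1, a2, a3, a4⟩ := ne_of_plane F.h0i
  obtain ⟨b1, b2, b3, b4⟩ := ne_of_plane F.h0k
  obtain ⟨c1, c2, c3, c4⟩ := ne_of_plane F.h0y
  obtain ⟨d1, d2, d3, d4⟩ := ne_of_plane F.hik
  obtain ⟨e1, e2, e3, e4⟩ := ne_of_plane F.hiy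
  obtain ⟨f1, f2, f3, f4⟩ := ne_of_plane F.hky
  have ii := idx_ne_swap i
  have kk := idx_ne_swap k
  have yy := idx_ne_swap y
  constructor <;>
    refine Subtype.ext ?_ <;>
    simp only [Aop, LinearMap.sub_apply, Module.End.mul_apply, Submodule.coe_sub, rotH_coe,
      vec_coe (monomial_mem_harm hD h1 F.h0k h2), vec_coe (monomial_mem_harm hD F.h0i F.h0k F.hik),
      mono_eq_prod, Submodule.coe_neg, Submodule.coe_zero]
  · rw [rot_pow_mul _ (by simpa using b1) a2, rot_pow_mul _ (by simpa using c1) a2]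
    simp [rot_X, mul_add, a2, b2, c2, d2, d3, d4, e3, f1, f2, ii, kk, Ne.symm d3, Ne.symm d4,
      Ne.symm e4]
  · rw [rot_pow_mul _ (by simpa using b1) a2, rot_pow_mul _ (by simpa using c1) a2]
    simp [rot_X, a2, b2, d1, d2, e1, f1, ii, Ne.symm d3]

theorem mw_eq_iff (z : Idx n) (m m' : Idx n →₀ ℕ) :
    mw (plane z) m = mw (plane z) m' ↔ (m z : ℤ) - m z.swap = m' z - m' z.swap := by
  cases z <;> simp [mw, plane] <;> omega

/-- The monomials with the weights of the extremal one outside the plane of `i`. -/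
theorem eq_mono_of_mw {D : ℕ} (hD : 2 ≤ D) {i0 i k y : Idx n} (F : Frame i0 i k y)
    {m : Idx n →₀ ℕ} (hm : m.degree = D)
    (h : ∀ b, b ≠ plane i → mw b m = mw b (mono D i0 i.swap k)) :
    m = mono D i0 i.swap k ∨ m = mono D i0 i k := by
  obtain ⟨a1, a2, a3, a4⟩ := ne_of_plane F.h0i
  obtain ⟨b1, b2, b3, b4⟩ := ne_of_plane F.h0k
  obtain ⟨d1, d2, d3, d4⟩ := ne_of_plane F.hik
  have h00 := idx_ne_swap i0
  have hii := idx_ne_swap i
  have hkk := idx_ne_swap k
  have v0 : (m i0 : ℤ) - m i0.swap = ((D - 2 : ℕ) : ℤ) := by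
    rw [(mw_eq_iff i0 _ _).1 (h _ F.h0i)]
    simp [mono, h00, Ne.symm a2, Ne.symm a4,
      Ne.symm b1, Ne.symm b3]
  have vk : (m k : ℤ) - m k.swap = 1 := by
    rw [(mw_eq_iff k _ _).1 (h _ F.hik.symm)]
    simp [mono, hkk, b1, b2, d3, d4]
  have vo : ∀ b, b ≠ plane i0 → b ≠ plane i → b ≠ plane k → m (.inl b) = m (.inr b) := by
    intro b g0 g1 g2
    have e := h b g1
    have ne : ∀ z : Idx n, b ≠ plane z → z ≠ Sum.inl b ∧ z ≠ Sum.inr b := fun z hz =>
      ⟨fun e => hz (by rw [e]; rfl), fun e => hz (by rw [e]; rfl)⟩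
    simp [mw, mono, ne _ g0, ne _ g2,
      ne i.swap (by rwa [plane_swap])] at e
    omega
  have htot : ∀ z : Idx n, m (.inl (plane z)) + m (.inr (plane z)) = m z + m z.swap := by
    intro z; cases z <;> simp [plane] <;> omega
  have hsum : ∑ b, (m (.inl b) + m (.inr b)) = D := by
    rw [Finset.sum_add_distrib, ← Fintype.sum_sum_type (fun z => m z), ← Finsupp.degree_eq_sum, hm]
  set rest := ((univ.erase (plane i0)).erase (plane k)).erase (plane i)
  have hsplit : D = (m i0 + m i0.swap) + (m k + m k.swap) + (m i + m i.swap)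
      + ∑ b ∈ rest, (m (.inl b) + m (.inr b)) := by
    rw [← hsum, ← Finset.add_sum_erase _ _ (mem_univ (plane i0)),
      ← Finset.add_sum_erase _ _ (mem_erase.2 ⟨F.h0k.symm, mem_univ (plane k)⟩),
      ← Finset.add_sum_erase _ _ (mem_erase.2 ⟨F.hik, mem_erase.2 ⟨F.h0i.symm, mem_univ (plane i)⟩⟩),
      htot, htot, htot]
    simp only [rest]
    ring
  have hrest : ∑ b ∈ rest, (m (.inl b) + m (.inr b)) = 2 * ∑ b ∈ rest, m (.inr b) := by
    rw [Finset.mul_sum]
    refine Finset.sum_congr rfl fun b hb => ?_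
    simp only [rest, mem_erase, mem_univ, and_true] at hb
    rw [vo b hb.2.2 hb.1 hb.2.1]
    ring
  have hzero : ∀ b ∈ rest, m (.inl b) = 0 ∧ m (.inr b) = 0 := by
    intro b hb
    have := Finset.single_le_sum (f := fun b => m (Sum.inl b) + m (Sum.inr b))
      (fun _ _ => Nat.zero_le _) hb
    omega
  have key : ∀ i' : Idx n, (i' = i ∨ i' = i.swap) → m i' = 1 → m i'.swap = 0 →
      m = mono D i0 i' k := by
    intro i' hi' h1 h0
    have hp : plane i' = plane i := by rcases hi' with rfl | rfl <;> simp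
    obtain ⟨g1, g2, g3, g4⟩ := ne_of_plane (show plane i0 ≠ plane i' by rw [hp]; exact F.h0i)
    obtain ⟨q1, q2, q3, q4⟩ := ne_of_plane (show plane i' ≠ plane k by rw [hp]; exact F.hik)
    have hi'' := idx_ne_swap i'
    ext z
    rcases eq_or_ne (plane z) (plane i0) with e | e
    · have : z = i0 ∨ z = i0.swap := by
        cases z <;> cases i0 <;> simp [plane] at e ⊢ <;> exact e
      rcases this with rfl | rfl <;>
        simp [mono, h00, Ne.symm g1, Ne.symm g3, Ne.symm b1, Ne.symm b3] <;>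
        omega
    rcases eq_or_ne (plane z) (plane k) with e' | e'
    · have : z = k ∨ z = k.swap := by
        cases z <;> cases k <;> simp [plane] at e' ⊢ <;> exact e'
      rcases this with rfl | rfl <;>
        simp [mono, hkk, b1, b2, q1, q2] <;> omega
    rcases eq_or_ne (plane z) (plane i') with e'' | e''
    · have : z = i' ∨ z = i'.swap := by
        cases z <;> cases i' <;> simp [plane] at e'' ⊢ <;> exact e''
      rcases this with rfl | rfl <;>
        simp [mono, hi'', g1, g2, Ne.symm q1, Ne.symm q3] <;> omega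
    · have hz : plane z ∈ rest := by simp [rest, e, e', ← hp, e'']
      have hz' : m z = 0 := by
        cases z <;> simp [plane] at hz ⊢ <;> simp [hzero _ hz]
      have ne : ∀ w : Idx n, plane z ≠ plane w → w ≠ z := fun w h e => h (by rw [e])
      simp [mono, hz', ne _ e, ne _ e', ne _ e'']
  rcases Nat.eq_zero_or_pos (m i) with hi | hi
  · exact Or.inl (key i.swap (Or.inr rfl) (by omega) (by rw [Sum.swap_swap]; exact hi))
  · exact Or.inr (key i (Or.inl rfl) (by omega) (by omega))

end Vale.Agent.P225.Gen
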