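import Vale.Agent.P225.Gen.Span

/-!
# Rotations on harmonic forms and the Hermitian apolar product
-/

open MvPolynomial Finset ComplexConjugate

namespace Vale.Agent.P225.Gen

variable {n : ℕ}

theorem pderiv_comm' (i j : Idx n) (P : Pol n) : pderiv i (pderiv j P) = pderiv j (pderiv i P) := by
  have h : ⁅pderiv (R := ℂ) i, pderiv (R := ℂ) j⁆ = 0 := by
    refine derivation_ext fun k => ?_
    classical
    simp only [Derivation.commutator_apply, pderiv_X, Pi.single_apply, Derivation.zero_apply]
    split_ifs <;> simp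
  have := congrArg (fun D : Derivation ℂ (Pol n) (Pol n) => D P) h
  simp only [Derivation.commutator_apply, Derivation.zero_apply] at this
  exact sub_eq_zero.1 this

theorem pderiv_lap (i : Idx n) (P : Pol n) : pderiv i (lap n P) = lap n (pderiv i P) := by
  simp only [lap_apply, map_sum]
  refine Finset.sum_congr rfl fun a _ => ?_
  rw [pderiv_comm' i, pderiv_comm' i]

theorem lap_X_mul (i : Idx n) (P : Pol n) :
    lap n (X i * P) = X i * lap n P + pderiv i.swap P := by
  simp only [lap_apply, pderiv_mul, map_add, Finset.sum_add_distrib, Finset.mul_sum]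
  rcases i with a | a <;> simp [pderiv_X, Pi.single_apply, apply_ite, ite_mul] <;> abel

theorem lap_rot (i j : Idx n) (P : Pol n) : lap n (rot i j P) = rot i j (lap n P) := by
  rw [rot_apply, rot_apply, map_sub, lap_X_mul, lap_X_mul, pderiv_lap, pderiv_lap,
    pderiv_comm' i.swap j.swap]
  abel

theorem isHomogeneous_rot (i j : Idx n) {d : ℕ} {P : Pol n} (hP : P.IsHomogeneous d) :
    (rot i j P).IsHomogeneous d := by
  rcases Nat.eq_zero_or_pos d with rfl | hd
  · rw [(totalDegree_eq_zero_iff_eq_C).1 (Nat.le_zero.1 hP.totalDegree_le)]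
    simp [isHomogeneous_zero]
  · rw [rot_apply]
    have h := fun k l : Idx n => (isHomogeneous_X ℂ k).mul (hP.pderiv (i := l))
    rw [show 1 + (d - 1) = d by omega] at h
    exact (h _ _).sub (h _ _)

/-- Harmonic forms of degree `l`. -/
noncomputable def harm (n l : ℕ) : Submodule ℂ (Pol n) :=
  homogeneousSubmodule (Idx n) ℂ l ⊓ LinearMap.ker (lap n)

theorem mem_harm {l : ℕ} {P : Pol n} : P ∈ harm n l ↔ P.IsHomogeneous l ∧ lap n P = 0 := by
  simp [harm]

instance finiteDimensional_harm (n l : ℕ) : FiniteDimensional ℂ (harm n l) := by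
  have hfd : FiniteDimensional ℂ (homogeneousSubmodule (Idx n) ℂ l) :=
    Module.Finite.iff_fg.2 (homogeneousSubmodule_fg (σ := Idx n) (R := ℂ) l)
  exact Submodule.finiteDimensional_of_le inf_le_left

theorem rot_mem_harm (i j : Idx n) {l : ℕ} {P : Pol n} (hP : P ∈ harm n l) :
    rot i j P ∈ harm n l := by
  rw [mem_harm] at hP ⊢
  exact ⟨isHomogeneous_rot i j hP.1, by rw [lap_rot, hP.2, map_zero]⟩

/-- A rotation acting on harmonic forms of degree `l`. -/
noncomputable def rotH (l : ℕ) (i j : Idx n) : Module.End ℂ (harm n l) :=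
  (rot i j).toLinearMap.restrict fun _ h => rot_mem_harm i j h

@[simp]
theorem rotH_coe (l : ℕ) (i j : Idx n) (P : harm n l) :
    (rotH l i j P : Pol n) = rot i j (P : Pol n) := rfl

/-- Product of factorials of the exponents. -/
def mfact (m : Idx n →₀ ℕ) : ℕ := ∏ i, (m i).factorial

theorem mfact_pos (m : Idx n →₀ ℕ) : 0 < mfact m :=
  Finset.prod_pos fun _ _ => Nat.factorial_pos _

theorem mfact_add_single (m : Idx n →₀ ℕ) (i : Idx n) :
    mfact (m + Finsupp.single i (1 : ℕ)) = mfact m * (m i + 1) := by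
  unfold mfact
  rw [← Finset.mul_prod_erase _ _ (mem_univ i), ← Finset.mul_prod_erase _ _ (mem_univ i)]
  have e : ∀ k ∈ univ.erase i, ((m + Finsupp.single i (1 : ℕ)) k).factorial = (m k).factorial := by
    intro k hk
    simp [ne_of_mem_erase hk]
  rw [Finset.prod_congr rfl e]
  simp [Nat.factorial_succ]
  ring

/-- The Hermitian apolar product. -/
noncomputable def herm (P Q : Pol n) : ℂ :=
  ∑ m ∈ P.support, conj (coeff m P) * coeff m Q * (mfact m : ℂ)

theorem herm_eq_sum {P : Pol n} {s : Finset (Idx n →₀ ℕ)} (h : P.support ⊆ s) (Q : Pol n) :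
    herm P Q = ∑ m ∈ s, conj (coeff m P) * coeff m Q * (mfact m : ℂ) := by
  refine Finset.sum_subset h fun m _ hm => ?_
  rw [notMem_support_iff.1 hm]; simp

theorem herm_conj (P Q : Pol n) : conj (herm P Q) = herm Q P := by
  rw [herm_eq_sum (s := P.support ∪ Q.support) subset_union_left,
    herm_eq_sum (P := Q) (s := P.support ∪ Q.support) subset_union_right, map_sum]
  refine Finset.sum_congr rfl fun m _ => ?_
  simp [mul_comm]

/-- The product as a linear form in the second argument. -/
noncomputable def hermL (P : Pol n) : Pol n →ₗ[ℂ] ℂ :=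
  ∑ m ∈ P.support, (conj (coeff m P) * (mfact m : ℂ)) • lcoeff ℂ m

theorem hermL_apply (P Q : Pol n) : hermL P Q = herm P Q := by
  simp only [hermL, herm, LinearMap.coe_sum, Finset.sum_apply, LinearMap.smul_apply, lcoeff_apply,
    smul_eq_mul]
  refine Finset.sum_congr rfl fun m _ => ?_
  ring

theorem herm_sub_right (P Q R : Pol n) : herm P (Q - R) = herm P Q - herm P R := by
  simp [← hermL_apply]

theorem herm_sub_left (P Q R : Pol n) : herm (P - Q) R = herm P R - herm Q R := by
  rw [← herm_conj R, herm_sub_right, map_sub, herm_conj, herm_conj]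

theorem herm_X_mul (i : Idx n) (P Q : Pol n) : herm (X i * P) Q = herm P (pderiv i Q) := by
  rw [herm, herm, support_X_mul, Finset.sum_map]
  refine Finset.sum_congr rfl fun m _ => ?_
  simp only [addLeftEmbedding_apply, coeff_X_mul, coeff_pderiv]
  rw [add_comm (Finsupp.single i (1 : ℕ)) m, mfact_add_single]
  push_cast
  ring

theorem herm_pderiv_left (i : Idx n) (P Q : Pol n) : herm (pderiv i P) Q = herm P (X i * Q) := by
  rw [← herm_conj Q, ← herm_X_mul, herm_conj]

theorem herm_rot (i j : Idx n) (P Q : Pol n) :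
    herm (rot i j P) Q = herm P (rot j.swap i.swap Q) := by
  rw [rot_apply, herm_sub_left, herm_X_mul, herm_X_mul, herm_pderiv_left, herm_pderiv_left,
    rot_apply, herm_sub_right, Sum.swap_swap, Sum.swap_swap]

theorem herm_self_eq_zero {P : Pol n} (h : herm P P = 0) : P = 0 := by
  have hz : ∀ m ∈ P.support, Complex.normSq (coeff m P) * (mfact m : ℝ) = 0 := by
    refine (Finset.sum_eq_zero_iff_of_nonneg fun m _ => ?_).1 ?_
    · exact mul_nonneg (Complex.normSq_nonneg _) (Nat.cast_nonneg _)
    · have : ((∑ m ∈ P.support, Complex.normSq (coeff m P) * (mfact m : ℝ) : ℝ) : ℂ) = 0 := by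
        rw [← h, herm]
        push_cast
        refine Finset.sum_congr rfl fun m _ => ?_
        rw [Complex.normSq_eq_conj_mul_self]
      exact_mod_cast this
  ext m
  by_contra hm
  have hm' : m ∈ P.support := by simpa [mem_support_iff] using hm
  rcases mul_eq_zero.1 (hz m hm') with h1 | h1
  · exact hm (by simpa using Complex.normSq_eq_zero.1 h1)
  · exact (mfact_pos m).ne' (by exact_mod_cast h1)

theorem lcoeff_eq_herm (m : Idx n →₀ ℕ) (Q : Pol n) :
    herm (monomial m (1 : ℂ)) Q = (mfact m : ℂ) * coeff m Q := by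
  rw [herm, support_monomial, if_neg one_ne_zero, Finset.sum_singleton, coeff_monomial, if_pos rfl]
  simp [mul_comm]

/-- Invariant subspaces of harmonic forms that contain `z^L` are everything. -/
theorem harm_le_of_invariant (hn : 2 ≤ n) {L : ℕ} (W : Submodule ℂ (Pol n)) (hW : W ≤ harm n L)
    (hrot : ∀ i j, ∀ P ∈ W, rot i j P ∈ W) (a0 : Fin n) (hz : (X (.inl a0) : Pol n) ^ L ∈ W) :
    harm n L ≤ W := by
  let mulq : Pol n →ₗ[ℂ] Pol n := LinearMap.mulLeft ℂ (qform n)
  let Q : Submodule ℂ (Pol n) :=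
    if L < 2 then ⊥ else (homogeneousSubmodule (Idx n) ℂ (L - 2)).map mulq
  have hrotQ : ∀ i j, ∀ P ∈ W ⊔ Q, rot i j P ∈ W ⊔ Q := by
    intro i j P hP
    obtain ⟨w, hw, q, hq, rfl⟩ := Submodule.mem_sup.1 hP
    rw [map_add]
    refine Submodule.add_mem_sup (hrot i j w hw) ?_
    simp only [Q] at hq ⊢
    split_ifs at hq ⊢
    · simp [(Submodule.mem_bot ℂ).1 hq]
    · obtain ⟨R, hR, rfl⟩ := hq
      refine ⟨rot i j R, isHomogeneous_rot i j hR, ?_⟩
      simp [mulq, (rot i j).leibniz, rot_qform]
  have htop := homogeneous_le hn (W ⊔ Q) hrotQ a0 (Submodule.mem_sup_left hz) (by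
    intro d hd R hR
    refine Submodule.mem_sup_right ?_
    simp only [Q, if_neg (show ¬ L < 2 by omega)]
    exact ⟨R, by rw [show L - 2 = d by omega]; exact hR, rfl⟩)
  intro P hP
  obtain ⟨w, hw, q, hq, rfl⟩ := Submodule.mem_sup.1 (htop hP.1)
  have hq0 : lap n q = 0 := by
    have h1 : lap n (w + q) = 0 := hP.2
    have h2 : lap n w = 0 := (hW hw).2
    rwa [map_add, h2, zero_add] at h1
  simp only [Q] at hq
  split_ifs at hq
  · simpa [(Submodule.mem_bot ℂ).1 hq] using hw
  · obtain ⟨R, hR, rfl⟩ := hq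
    have : R = 0 := qform_pow_mul_harmonic (by omega) _ 0 R hR (by simpa [mulq] using hq0)
    simpa [this] using hw

end Vale.Agent.P225.Gen
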