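import Mathlib

/-!
# Complex harmonic polynomials in null coordinates

Variables are indexed by `Fin n ⊕ Fin n` (`inl a` is `z_a`, `inr a` is `w_a`);
the quadratic form is `∑ a, z_a w_a`.
-/

open MvPolynomial Finset

namespace Vale.Agent.P225.Gen

variable {n : ℕ}

/-- Index set of the null coordinates. -/
abbrev Idx (n : ℕ) := Fin n ⊕ Fin n

/-- Complex polynomials in the null coordinates. -/
abbrev Pol (n : ℕ) := MvPolynomial (Idx n) ℂ

/-- The quadratic form. -/
noncomputable def qform (n : ℕ) : Pol n := ∑ a : Fin n, X (.inl a) * X (.inr a)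

/-- The Laplacian in null coordinates (one quarter of the Euclidean one). -/
noncomputable def lap (n : ℕ) : Pol n →ₗ[ℂ] Pol n :=
  ∑ a : Fin n, (pderiv (Sum.inl a)).toLinearMap ∘ₗ (pderiv (Sum.inr a)).toLinearMap

/-- The rotation generator `x_i ∂_{σ j} - x_j ∂_{σ i}`, where `σ` swaps the summands. -/
noncomputable def rot (i j : Idx n) : Derivation ℂ (Pol n) (Pol n) :=
  (X i : Pol n) • pderiv j.swap - (X j : Pol n) • pderiv i.swap

theorem lap_apply (P : Pol n) :
    lap n P = ∑ a : Fin n, pderiv (Sum.inl a) (pderiv (Sum.inr a) P) := by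
  simp [lap]

theorem rot_apply (i j : Idx n) (P : Pol n) :
    rot i j P = X i * pderiv j.swap P - X j * pderiv i.swap P := by
  simp [rot]

theorem pderiv_qform_inl (a : Fin n) : pderiv (Sum.inl a) (qform n) = X (.inr a) := by
  rw [qform, map_sum, Finset.sum_eq_single a]
  · rw [pderiv_mul, pderiv_X_self, pderiv_X_of_ne (by simp)]; simp
  · intro b _ hb
    rw [pderiv_mul, pderiv_X_of_ne (by simpa using hb), pderiv_X_of_ne (by simp)]; simp
  · simp

theorem pderiv_qform_inr (a : Fin n) : pderiv (Sum.inr a) (qform n) = X (.inl a) := by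
  rw [qform, map_sum, Finset.sum_eq_single a]
  · rw [pderiv_mul, pderiv_X_self, pderiv_X_of_ne (by simp)]; simp
  · intro b _ hb
    rw [pderiv_mul, pderiv_X_of_ne (by simp), pderiv_X_of_ne (by simpa using hb)]; simp
  · simp

theorem rot_qform (i j : Idx n) : rot i j (qform n) = 0 := by
  rw [rot_apply]
  rcases i with a | a <;> rcases j with b | b <;>
    simp [pderiv_qform_inl, pderiv_qform_inr] <;> ring

/-- Commutation of the Laplacian with multiplication by the quadratic form. -/
theorem lap_qform_mul {d : ℕ} {Q : Pol n} (hQ : Q.IsHomogeneous d) :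
    lap n (qform n * Q) = qform n * lap n Q + ((n + d : ℕ) : ℂ) • Q := by
  have e := hQ.sum_X_mul_pderiv
  rw [Fintype.sum_sum_type] at e
  simp only [lap_apply, pderiv_mul, map_add, pderiv_qform_inl, pderiv_qform_inr,
    pderiv_X_self, Finset.sum_add_distrib, Finset.mul_sum]
  have h : ((n + d : ℕ) : ℂ) • Q = (∑ _a : Fin n, Q) + d • Q := by
    simp [Finset.sum_const, Nat.cast_smul_eq_nsmul, add_smul]
  rw [h, ← e]
  simp only [one_mul]
  abel

theorem isHomogeneous_qform (n : ℕ) : (qform n).IsHomogeneous 2 :=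
  MvPolynomial.IsHomogeneous.sum _ _ _ fun a _ =>
    (isHomogeneous_X ℂ (Sum.inl a)).mul (isHomogeneous_X ℂ (Sum.inr a))

theorem lap_qform_pow_mul (j : ℕ) {d : ℕ} {Q : Pol n} (hQ : Q.IsHomogeneous d) :
    lap n (qform n ^ (j + 1) * Q) = qform n ^ (j + 1) * lap n Q
      + (((j + 1) * (n + d + j) : ℕ) : ℂ) • (qform n ^ j * Q) := by
  induction j with
  | zero => simp [lap_qform_mul hQ]
  | succ j ih =>
    have hh : (qform n ^ (j + 1) * Q).IsHomogeneous (2 * (j + 1) + d) :=
      ((isHomogeneous_qform n).pow (j + 1)).mul hQ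
    rw [pow_succ' _ (j + 1), mul_assoc, lap_qform_mul hh, ih, mul_add, mul_smul_comm,
      ← mul_assoc (qform n) (qform n ^ j), ← pow_succ' _ j, add_assoc, ← add_smul,
      ← mul_assoc, ← Nat.cast_add]
    congr 2
    push_cast
    ring

end Vale.Agent.P225.Gen
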