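import Vale.Agent.P225.Gen.Poly

/-!
# Rotation-invariant subspaces containing `z^L` contain every harmonic polynomial of degree `L`
-/

open MvPolynomial Finset

namespace Vale.Agent.P225.Gen

variable {n : ℕ}

theorem X_mul_pderiv_mono (i k : Idx n) (m : Idx n →₀ ℕ) :
    (X i : Pol n) * pderiv k (monomial m (1 : ℂ)) =
      (m k : ℂ) • monomial (m - Finsupp.single k 1 + Finsupp.single i 1) (1 : ℂ) := by
  rw [pderiv_monomial, X, monomial_mul, smul_monomial]
  congr 1
  · rw [add_comm]
  · simp

theorem rot_mono (i j : Idx n) (m : Idx n →₀ ℕ) :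
    rot i j (monomial m (1 : ℂ)) =
      (m j.swap : ℂ) • monomial (m - Finsupp.single j.swap 1 + Finsupp.single i 1) (1 : ℂ)
      - (m i.swap : ℂ) • monomial (m - Finsupp.single i.swap 1 + Finsupp.single j 1) (1 : ℂ) := by
  rw [rot_apply, X_mul_pderiv_mono, X_mul_pderiv_mono]

theorem degree_move {m : Idx n →₀ ℕ} {L : ℕ} (i k : Idx n) (hm : m.degree = L) (hk : 0 < m k) :
    (m - Finsupp.single k 1 + Finsupp.single i 1).degree = L := by
  have h : (m - Finsupp.single k 1).degree + 1 = L := by
    have := congrArg Finsupp.degree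
      (tsub_add_cancel_of_le (Finsupp.single_le_iff.2 hk) : m - Finsupp.single k 1 + Finsupp.single k 1 = m)
    rw [map_add, Finsupp.degree_single, hm] at this
    exact this
  rw [map_add, Finsupp.degree_single, h]

/-- The number of `w` factors of a monomial. -/
def wdeg (m : Idx n →₀ ℕ) : ℕ := ∑ a, m (.inr a)

section

variable {L : ℕ} (W : Submodule ℂ (Pol n))

theorem pure_mem (a0 : Fin n) (hrot : ∀ i j, ∀ P ∈ W, rot i j P ∈ W)
    (hz : monomial (Finsupp.single (Sum.inl a0) L) (1 : ℂ) ∈ W) :
    ∀ (k : ℕ) (m : Idx n →₀ ℕ), m.degree = L → wdeg m = 0 →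
      m (.inl a0) + k = L → monomial m (1 : ℂ) ∈ W := by
  intro k
  induction k with
  | zero =>
    intro m hm hw hk
    have : m = Finsupp.single (Sum.inl a0) L := by
      have hle : Finsupp.single (Sum.inl a0) L ≤ m := Finsupp.single_le_iff.2 (by omega)
      have hd := congrArg Finsupp.degree (tsub_add_cancel_of_le hle)
      rw [map_add, Finsupp.degree_single, hm] at hd
      have h0 : m - Finsupp.single (Sum.inl a0) L = 0 :=
        (Finsupp.degree_eq_zero_iff _).1 (by omega)
      rw [← tsub_add_cancel_of_le hle, h0, zero_add]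
    rw [this]; exact hz
  | succ k ih =>
    intro m hm hw hk
    have hw' : ∀ a, m (.inr a) = 0 := by simpa [wdeg] using hw
    obtain ⟨b, hb, hbpos⟩ : ∃ b, b ≠ a0 ∧ 0 < m (.inl b) := by
      by_contra hc
      push Not at hc
      rw [Finsupp.degree_eq_sum, Fintype.sum_sum_type, Finset.sum_eq_single a0] at hm
      · simp [hw'] at hm; omega
      · intro b _ hb; have := hc b hb; omega
      · simp
    set s : Idx n →₀ ℕ := m - Finsupp.single (.inl b) 1 + Finsupp.single (.inl a0) 1
    have hne : (Sum.inl a0 : Idx n) ≠ Sum.inl b := by simp [Ne.symm hb]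
    have hs0 : s (.inl a0) = m (.inl a0) + 1 := by simp [s, hne.symm]
    have hsw : ∀ a, s (.inr a) = 0 := by intro a; simp [s, hw']
    have hsW : monomial s (1 : ℂ) ∈ W :=
      ih s (degree_move _ _ hm hbpos) (by simp [wdeg, hsw]) (by omega)
    have h := hrot (.inl b) (.inr a0) _ hsW
    rw [rot_mono] at h
    simp only [Sum.swap_inl, Sum.swap_inr, hsw, Nat.cast_zero, zero_smul, sub_zero, hs0] at h
    have he : s - Finsupp.single (.inl a0) 1 + Finsupp.single (.inl b) 1 = m := by
      simp only [s, add_tsub_cancel_right]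
      exact tsub_add_cancel_of_le (Finsupp.single_le_iff.2 hbpos)
    rw [he] at h
    exact (Submodule.smul_mem_iff W (Nat.cast_ne_zero.2 (Nat.succ_ne_zero _))).1 h

theorem mono_mem (hn : 2 ≤ n) (hrot : ∀ i j, ∀ P ∈ W, rot i j P ∈ W) (a0 : Fin n)
    (hz : monomial (Finsupp.single (Sum.inl a0) L) (1 : ℂ) ∈ W)
    (hq : ∀ g : Idx n →₀ ℕ, g.degree + 2 = L → qform n * monomial g (1 : ℂ) ∈ W) :
    ∀ (j : ℕ) (m : Idx n →₀ ℕ), m.degree = L → wdeg m = j → monomial m (1 : ℂ) ∈ W := by
  intro j
  induction j with
  | zero =>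
    intro m hm hw
    have : m (.inl a0) ≤ L := hm ▸ Finsupp.le_degree _ m
    exact pure_mem W a0 hrot hz (L - m (.inl a0)) m hm hw (by omega)
  | succ j ih =>
    intro m hm hw
    obtain ⟨a, ha⟩ : ∃ a, 0 < m (.inr a) := by
      by_contra hc
      push Not at hc
      have : wdeg m = 0 := by simp [wdeg, fun a => Nat.le_zero.1 (hc a)]
      omega
    by_cases hzero : m (.inl a) = 0
    · obtain ⟨b, hba⟩ : ∃ b, b ≠ a := by
        have : Nontrivial (Fin n) := Fin.nontrivial_iff_two_le.2 hn
        exact exists_ne a
      set s : Idx n →₀ ℕ := m - Finsupp.single (.inr a) 1 + Finsupp.single (.inl b) 1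
      have hsa : s (.inl a) = 0 := by simp [s, hzero, hba]
      have hsb : s (.inl b) = m (.inl b) + 1 := by simp [s]
      have hsw : wdeg s = j := by
        have : wdeg s + 1 = wdeg m := by
          unfold wdeg
          rw [← Finset.add_sum_erase _ _ (mem_univ a), ← Finset.add_sum_erase _ _ (mem_univ a)]
          have e : ∀ c ∈ univ.erase a, s (.inr c) = m (.inr c) := by
            intro c hc; simp [s, Ne.symm (ne_of_mem_erase hc)]
          rw [Finset.sum_congr rfl e]
          simp [s]; omega
        omega
      have h := hrot (.inr a) (.inr b) _ (ih s (degree_move _ _ hm ha) hsw)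
      rw [rot_mono] at h
      simp only [Sum.swap_inr, hsa, hsb, Nat.cast_zero, zero_smul, sub_zero] at h
      have he : s - Finsupp.single (.inl b) 1 + Finsupp.single (.inr a) 1 = m := by
        simp only [s, add_tsub_cancel_right]
        exact tsub_add_cancel_of_le (Finsupp.single_le_iff.2 ha)
      rw [he] at h
      exact (Submodule.smul_mem_iff W (Nat.cast_ne_zero.2 (Nat.succ_ne_zero _))).1 h
    · -- shared index: use the relations and the quadratic form
      have hza : 0 < m (.inl a) := Nat.pos_of_ne_zero hzero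
      set g : Idx n →₀ ℕ := m - Finsupp.single (.inl a) 1 - Finsupp.single (.inr a) 1
      have hm' : g + Finsupp.single (.inl a) 1 + Finsupp.single (.inr a) 1 = m := by
        ext i
        rcases eq_or_ne i (Sum.inl a) with rfl | h1
        · simp [g]; omega
        rcases eq_or_ne i (Sum.inr a) with rfl | h2
        · simp [g]; omega
        simp [g, h1.symm, h2.symm]
      have hgL : g.degree + 2 = L := by
        rw [← hm, ← hm', map_add, map_add, Finsupp.degree_single, Finsupp.degree_single]
      have hgw : wdeg g = j := by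
        have : wdeg g + 1 = wdeg m := by
          rw [← hm']
          simp [wdeg, Finset.sum_add_distrib, Finsupp.single_apply]
        omega
      set x : Fin n → Pol n := fun c =>
        monomial (g + Finsupp.single (.inl c) 1 + Finsupp.single (.inr c) 1) (1 : ℂ)
      set γ : Fin n → ℂ := fun c => (g (.inl c) : ℂ) + 1
      have hrel : ∀ c d, γ d • x c - γ c • x d ∈ W := by
        intro c d
        rcases eq_or_ne c d with rfl | hcd
        · simp
        set s : Idx n →₀ ℕ := g + Finsupp.single (.inl c) 1 + Finsupp.single (.inl d) 1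
        have hs : monomial s (1 : ℂ) ∈ W := by
          refine ih s ?_ ?_
          · simp [s, map_add, Finsupp.degree_single]; omega
          · rw [← hgw]; simp [wdeg, s]
        have h := hrot (.inr c) (.inr d) _ hs
        rw [rot_mono] at h
        simp only [Sum.swap_inr] at h
        have e1 : s - Finsupp.single (.inl d) 1 + Finsupp.single (.inr c) 1
            = g + Finsupp.single (.inl c) 1 + Finsupp.single (.inr c) 1 := by
          simp only [s, add_tsub_cancel_right]
        have e2 : s - Finsupp.single (.inl c) 1 + Finsupp.single (.inr d) 1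
            = g + Finsupp.single (.inl d) 1 + Finsupp.single (.inr d) 1 := by
          have : s = g + Finsupp.single (.inl d) 1 + Finsupp.single (.inl c) 1 := by
            simp only [s]; abel
          rw [this, add_tsub_cancel_right]
        rw [e1, e2] at h
        have c1 : (s (.inl d) : ℂ) = γ d := by simp [s, γ, hcd]
        have c2 : (s (.inl c) : ℂ) = γ c := by simp [s, γ, Ne.symm hcd]
        rwa [c1, c2] at h
      have hsum : (∑ c, x c) ∈ W := by
        have := hq g hgL
        rw [qform, Finset.sum_mul] at this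
        convert this using 1
        refine Finset.sum_congr rfl fun c _ => ?_
        simp only [x, X, monomial_mul, one_mul]
        congr 2; abel
      have hkey : (∑ c, γ c) • x a ∈ W := by
        have h1 : (∑ c, (γ a • x c - γ c • x a)) ∈ W := W.sum_mem fun c _ => hrel c a
        rw [Finset.sum_sub_distrib, ← Finset.smul_sum, ← Finset.sum_smul] at h1
        have := W.sub_mem (W.smul_mem (γ a) hsum) h1
        simpa using this
      have hne : (∑ c, γ c) ≠ 0 := by
        simp only [γ, ← Nat.cast_one (R := ℂ), ← Nat.cast_add, ← Nat.cast_sum]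
        norm_cast
        simp [Finset.sum_add_distrib]
        omega
      have := (Submodule.smul_mem_iff W hne).1 hkey
      simpa [x, hm'] using this

end

/-- A rotation-invariant subspace that contains `z^L` and all multiples of the quadratic form in
degree `L` contains every form of degree `L`. -/
theorem homogeneous_le (hn : 2 ≤ n) {L : ℕ} (W : Submodule ℂ (Pol n))
    (hrot : ∀ i j, ∀ P ∈ W, rot i j P ∈ W) (a0 : Fin n) (hz : (X (.inl a0) : Pol n) ^ L ∈ W)
    (hq : ∀ d, d + 2 = L → ∀ Q : Pol n, Q.IsHomogeneous d → qform n * Q ∈ W) :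
    homogeneousSubmodule (Idx n) ℂ L ≤ W := by
  intro P hP
  rw [P.as_sum]
  refine W.sum_mem fun m hm => ?_
  have hd : m.degree = L := ((mem_homogeneousSubmodule L P).1 hP).degree_eq_sum_deg_support hm ▸ rfl
  rw [show monomial m (P.coeff m) = P.coeff m • monomial m (1 : ℂ) by
    rw [smul_monomial]; simp]
  refine W.smul_mem _ (mono_mem W hn hrot a0 ?_ ?_ _ m hd rfl)
  · simpa [X_pow_eq_monomial] using hz
  · intro g hg
    exact hq _ hg _ (isHomogeneous_monomial 1 rfl)

theorem isHomogeneous_lap {d : ℕ} {Q : Pol n} (hQ : Q.IsHomogeneous d) :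
    (lap n Q).IsHomogeneous (d - 2) := by
  rw [lap_apply]
  refine MvPolynomial.IsHomogeneous.sum _ _ _ fun a _ => ?_
  rw [show d - 2 = d - 1 - 1 by omega]
  exact hQ.pderiv.pderiv

/-- A harmonic form divisible by the quadratic form is zero. -/
theorem qform_pow_mul_harmonic (hn : 1 ≤ n) : ∀ (d j : ℕ) (Q : Pol n), Q.IsHomogeneous d →
    lap n (qform n ^ (j + 1) * Q) = 0 → Q = 0 := by
  intro d
  induction d using Nat.strong_induction_on with
  | _ d ih =>
    intro j Q hQ h
    rw [lap_qform_pow_mul j hQ, pow_succ, mul_assoc] at h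
    have hc : (((j + 1) * (n + d + j) : ℕ) : ℂ) ≠ 0 := by
      exact_mod_cast (Nat.mul_pos j.succ_pos (by omega : 0 < n + d + j)).ne'
    rw [← mul_smul_comm, ← mul_add] at h
    have hqne : qform n ≠ 0 := by
      intro h0
      have h2 := congrArg (fun p : Pol n => pderiv (Sum.inl (⟨0, hn⟩ : Fin n)) p) h0
      simp [pderiv_qform_inl] at h2
    have h1 := (mul_eq_zero.1 h).resolve_left (pow_ne_zero j hqne)
    set c : ℂ := (((j + 1) * (n + d + j) : ℕ) : ℂ)
    have hQ' : Q = qform n * ((-c⁻¹) • lap n Q) := by
      rw [mul_smul_comm, eq_neg_of_add_eq_zero_left h1]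
      simp [smul_smul, hc]
    rcases Nat.lt_or_ge d 2 with hd | hd
    · have : lap n Q = 0 := by
        rw [lap_apply]
        refine Finset.sum_eq_zero fun a _ => ?_
        have hp : (pderiv (Sum.inr a) Q).IsHomogeneous 0 := by
          have := hQ.pderiv (i := Sum.inr a)
          rwa [show d - 1 = 0 by omega] at this
        rw [(totalDegree_eq_zero_iff_eq_C).1 (Nat.le_zero.1 hp.totalDegree_le), pderiv_C]
      rw [hQ', this]; simp
    · have hR : ((-c⁻¹) • lap n Q).IsHomogeneous (d - 2) :=
        (homogeneousSubmodule (Idx n) ℂ (d - 2)).smul_mem _ (isHomogeneous_lap hQ)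
      have hh : lap n (qform n ^ (j + 1 + 1) * ((-c⁻¹) • lap n Q)) = 0 := by
        rw [pow_succ, mul_assoc, ← hQ', lap_qform_pow_mul j hQ, pow_succ, mul_assoc,
          ← mul_smul_comm, ← mul_add, h1, mul_zero]
      rw [hQ', ih (d - 2) (by omega) (j + 1) _ hR hh, mul_zero]

end Vale.Agent.P225.Gen
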