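import Vale.Agent.P225.Gen.Ops

/-!
# Weights of the rotations
-/

open MvPolynomial Finset

namespace Vale.Agent.P225.Gen

variable {n : ℕ}

/-- The coordinate plane of a null coordinate. -/
def plane : Idx n → Fin n := Sum.elim id id

/-- The sign of a null coordinate in its plane. -/
def sgn : Idx n → ℂ := Sum.elim (fun _ => 1) (fun _ => -1)

/-- The weight of a null coordinate for the rotation of the plane `b`. -/
def wt (b : Fin n) (i : Idx n) : ℂ := if plane i = b then sgn i else 0

@[simp] theorem plane_swap (i : Idx n) : plane i.swap = plane i := by cases i <;> rfl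

theorem sgn_ne_zero (i : Idx n) : sgn i ≠ 0 := by cases i <;> simp [sgn]

theorem sgn_swap (i : Idx n) : sgn i.swap = -sgn i := by cases i <;> simp [sgn]

theorem wt_swap (b : Fin n) (i : Idx n) : wt b i.swap = -wt b i := by
  unfold wt; rw [plane_swap, sgn_swap]; split_ifs <;> simp

theorem wt_self (i : Idx n) : wt (plane i) i = sgn i := by simp [wt]

theorem wt_of_ne {b : Fin n} {i : Idx n} (h : plane i ≠ b) : wt b i = 0 := by simp [wt, h]

theorem ne_of_plane {i j : Idx n} (h : plane i ≠ plane j) :
    i ≠ j ∧ i ≠ j.swap ∧ i.swap ≠ j ∧ i.swap ≠ j.swap := by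
  refine ⟨?_, ?_, ?_, ?_⟩ <;> intro e <;> apply h <;> simpa using congrArg plane e

theorem rot_X (i j k : Idx n) :
    rot i j (X k : Pol n) = (if k = j.swap then (1 : ℂ) else 0) • X i
      - (if k = i.swap then (1 : ℂ) else 0) • X j := by
  classical
  simp [rot_apply, pderiv_X, Pi.single_apply]

/-- Commutation of two rotations. -/
theorem rot_comm (p q i j : Idx n) (P : Pol n) :
    rot p q (rot i j P) - rot i j (rot p q P) =
      (if i = q.swap then (1 : ℂ) else 0) • rot p j P
      - (if i = p.swap then (1 : ℂ) else 0) • rot q j P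
      + (if j = q.swap then (1 : ℂ) else 0) • rot i p P
      - (if j = p.swap then (1 : ℂ) else 0) • rot i q P := by
  have h : ⁅rot p q, rot i j⁆ =
      (if i = q.swap then (1 : ℂ) else 0) • rot p j
      - (if i = p.swap then (1 : ℂ) else 0) • rot q j
      + (if j = q.swap then (1 : ℂ) else 0) • rot i p
      - (if j = p.swap then (1 : ℂ) else 0) • rot i q := by
    have hs : ∀ a b : Idx n, (if a = b.swap then (1 : ℂ) else 0) =
        (if b = a.swap then (1 : ℂ) else 0) := fun a b => by
      refine if_congr ⟨fun e => ?_, fun e => ?_⟩ rfl rfl <;> simp [e]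
    refine derivation_ext fun k => ?_
    simp only [Derivation.commutator_apply, Derivation.sub_apply, Derivation.add_apply,
      Derivation.smul_apply, rot_X, map_sub, Derivation.map_smul, hs p i, hs p j, hs q i, hs q j]
    module
  simpa only [Derivation.commutator_apply, Derivation.sub_apply, Derivation.add_apply,
    Derivation.smul_apply] using congrArg (fun D : Derivation ℂ (Pol n) (Pol n) => D P) h

/-- Commutation of two rotations on harmonic forms. -/
theorem rotH_comm (l : ℕ) (p q i j : Idx n) :
    rotH l p q * rotH l i j - rotH l i j * rotH l p q =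
      (if i = q.swap then (1 : ℂ) else 0) • rotH l p j
      - (if i = p.swap then (1 : ℂ) else 0) • rotH l q j
      + (if j = q.swap then (1 : ℂ) else 0) • rotH l i p
      - (if j = p.swap then (1 : ℂ) else 0) • rotH l i q := by
  refine LinearMap.ext fun P => Subtype.ext ?_
  have h := rot_comm p q i j (P : Pol n)
  simpa only [LinearMap.sub_apply, LinearMap.add_apply, LinearMap.smul_apply,
    Module.End.mul_apply, Submodule.coe_sub, Submodule.coe_add, Submodule.coe_smul, rotH_coe]
    using h

theorem rotH_self (l : ℕ) (i : Idx n) : rotH l i i = 0 := by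
  refine LinearMap.ext fun P => Subtype.ext ?_
  simp [rot_apply]

/-- The rotation of the plane `b`. -/
noncomputable def hH (l : ℕ) (b : Fin n) : Module.End ℂ (harm n l) := rotH l (.inl b) (.inr b)

theorem hH_rotH (l : ℕ) (b : Fin n) (i j : Idx n) :
    hH l b * rotH l i j - rotH l i j * hH l b = (wt b i + wt b j) • rotH l i j := by
  have hw : ∀ z : Idx n, wt b z = (if z = (Sum.inr b : Idx n).swap then (1 : ℂ) else 0)
      - (if z = (Sum.inl b : Idx n).swap then (1 : ℂ) else 0) := by
    rintro (z | z) <;> by_cases e : z = b <;> simp [wt, plane, sgn, e]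
  have a1 : (if i = (Sum.inr b : Idx n).swap then (1 : ℂ) else 0) • rotH l (.inl b) j =
      (if i = (Sum.inr b : Idx n).swap then (1 : ℂ) else 0) • rotH l i j := by
    split_ifs with e <;> simp [e]
  have a2 : (if i = (Sum.inl b : Idx n).swap then (1 : ℂ) else 0) • rotH l (.inr b) j =
      (if i = (Sum.inl b : Idx n).swap then (1 : ℂ) else 0) • rotH l i j := by
    split_ifs with e <;> simp [e]
  have a3 : (if j = (Sum.inr b : Idx n).swap then (1 : ℂ) else 0) • rotH l i (.inl b) =
      (if j = (Sum.inr b : Idx n).swap then (1 : ℂ) else 0) • rotH l i j := by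
    split_ifs with e <;> simp [e]
  have a4 : (if j = (Sum.inl b : Idx n).swap then (1 : ℂ) else 0) • rotH l i (.inr b) =
      (if j = (Sum.inl b : Idx n).swap then (1 : ℂ) else 0) • rotH l i j := by
    split_ifs with e <;> simp [e]
  rw [hH, rotH_comm, hw, hw, a1, a2, a3, a4]
  module

section

variable {R : Type*} [Ring R] [Algebra ℂ R]

theorem weight_mul {h E F : R} {x y : ℂ} (hE : h * E - E * h = x • E) (hF : h * F - F * h = y • F) :
    h * (E * F) - (E * F) * h = (x + y) • (E * F) := by
  have : h * (E * F) - (E * F) * h = (h * E - E * h) * F + E * (h * F - F * h) := by noncomm_ring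
  rw [this, hE, hF, smul_mul_assoc, mul_smul_comm, add_smul]

theorem weight_sub {h E F : R} {x : ℂ} (hE : h * E - E * h = x • E) (hF : h * F - F * h = x • F) :
    h * (E - F) - (E - F) * h = x • (E - F) := by
  rw [smul_sub, ← hE, ← hF, mul_sub, sub_mul]
  abel

theorem triple_bracket {hx hy e f g eb fb : R} {sx sy : ℂ} (h1 : hx * e - e * hx = sx • e)
    (h2 : hy * e - e * hy = 0) (h3 : hy * f - f * hy = sy • f) (h4 : f * e - e * f = 0)
    (h5 : g * e - e * g = -fb) (h6 : g * f - f * g = eb) (h7 : fb * f - f * fb = 0) :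
    let T1 := e * (hx * hy) - hx * hy * e
    let T2 := f * T1 - T1 * f
    g * T2 - T2 * g = (sx * sy) • (e * eb - f * fb) := by
  intro T1 T2
  have e1 : T1 = -sx • (e * hy) := by
    have : T1 = -((hx * e - e * hx) * hy) - hx * (hy * e - e * hy) := by
      simp only [T1]; noncomm_ring
    rw [this, h1, h2, mul_zero, sub_zero, smul_mul_assoc, neg_smul]
  have e2 : T2 = (sx * sy) • (e * f) := by
    simp only [T2, e1, mul_smul_comm, smul_mul_assoc, ← smul_sub]
    have : f * (e * hy) - e * hy * f = (f * e - e * f) * hy - e * (hy * f - f * hy) := by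
      noncomm_ring
    rw [this, h3, h4, zero_mul, zero_sub, mul_smul_comm, smul_neg, smul_smul, neg_mul, neg_smul,
      neg_neg]
  rw [e2]
  simp only [mul_smul_comm, smul_mul_assoc, ← smul_sub]
  congr 1
  have : g * (e * f) - e * f * g = (g * e - e * g) * f + e * (g * f - f * g) := by noncomm_ring
  rw [this, h5, h6, neg_mul, sub_eq_zero.1 h7, neg_add_eq_sub]

end

theorem hH_commute (l : ℕ) (a b : Fin n) : Commute (hH l a) (hH l b) := by
  have : wt a (.inl b) + wt a (.inr b) = 0 := by
    rw [show (Sum.inr b : Idx n) = (Sum.inl b).swap from rfl, wt_swap]; ring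
  exact sub_eq_zero.1 ((hH_rotH l a (.inl b) (.inr b)).trans (by rw [this, zero_smul]))

theorem coeff_X_mul_pderiv (i : Idx n) (P : Pol n) (m : Idx n →₀ ℕ) :
    coeff m (X i * pderiv i P) = (m i : ℂ) * coeff m P := by
  classical
  rw [coeff_X_mul']
  split_ifs with h
  · have hle : Finsupp.single i (1 : ℕ) ≤ m := Finsupp.single_le_iff.2 (by
      have := Finsupp.mem_support_iff.1 h; omega)
    rw [coeff_pderiv, tsub_add_cancel_of_le hle, mul_comm]
    congr 1
    have := Finsupp.mem_support_iff.1 h
    simp only [Finsupp.coe_tsub, Pi.sub_apply, Finsupp.single_eq_same]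
    rw [← Nat.cast_add_one]
    congr 1
    omega
  · simp [Finsupp.notMem_support_iff.1 h]

/-- The weight of a monomial in the plane `b`. -/
noncomputable def mw (b : Fin n) (m : Idx n →₀ ℕ) : ℤ := (m (.inl b) : ℤ) - (m (.inr b) : ℤ)

theorem coeff_hH (l : ℕ) (b : Fin n) (P : harm n l) (m : Idx n →₀ ℕ) :
    coeff m (hH l b P : Pol n) = (mw b m : ℂ) * coeff m (P : Pol n) := by
  simp [hH, rot_apply, coeff_X_mul_pderiv, mw, sub_mul]

theorem mw_le {b : Fin n} {m : Idx n →₀ ℕ} {D : ℕ} (hm : m.degree = D) : (mw b m).natAbs ≤ D := by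
  have h1 := Finsupp.le_degree (.inl b) m
  have h2 := Finsupp.le_degree (.inr b) m
  simp only [mw]
  omega

/-- The second order element that raises the weight twice in the direction `i`. -/
noncomputable def Aop (l : ℕ) (i x y : Idx n) : Module.End ℂ (harm n l) :=
  rotH l i x * rotH l i x.swap - rotH l i y * rotH l i y.swap

theorem hH_Aop (l : ℕ) (b : Fin n) (i x y : Idx n) :
    hH l b * Aop l i x y - Aop l i x y * hH l b = (2 * wt b i) • Aop l i x y := by
  have hx := weight_mul (R := Module.End ℂ (harm n l)) (hH_rotH l b i x) (hH_rotH l b i x.swap)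
  have hy := weight_mul (R := Module.End ℂ (harm n l)) (hH_rotH l b i y) (hH_rotH l b i y.swap)
  have e : ∀ z : Idx n, wt b i + wt b z + (wt b i + wt b z.swap) = 2 * wt b i := fun z => by
    rw [wt_swap]; ring
  rw [e] at hx hy
  exact weight_sub hx hy

/-- The brackets that produce `Aop` from a product of two plane rotations. -/
theorem Aop_eq (l : ℕ) {i x y : Idx n} (hix : plane i ≠ plane x) (hiy : plane i ≠ plane y)
    (hxy : plane x ≠ plane y) :
    let T := hH l (plane x) * hH l (plane y)
    let T1 := rotH l i x * T - T * rotH l i x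
    let T2 := rotH l i y * T1 - T1 * rotH l i y
    rotH l x.swap y.swap * T2 - T2 * rotH l x.swap y.swap = (sgn x * sgn y) • Aop l i x y := by
  obtain ⟨ix, ix', ix'', -⟩ := ne_of_plane hix
  obtain ⟨iy, iy', iy'', -⟩ := ne_of_plane hiy
  obtain ⟨xy, xy', xy'', -⟩ := ne_of_plane hxy
  have ii : i ≠ i.swap := by cases i <;> simp
  refine triple_bracket (R := Module.End ℂ (harm n l)) (hx := hH l (plane x)) ?_ ?_ ?_ ?_ ?_ ?_ ?_
  · rw [hH_rotH, wt_of_ne hix, wt_self, zero_add]
  · rw [hH_rotH, wt_of_ne hiy, wt_of_ne hxy, zero_add, zero_smul]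
  · rw [hH_rotH, wt_of_ne hiy, wt_self, zero_add]
  · rw [rotH_comm]
    simp [iy', ii, xy', Ne.symm ix'']
    abel
  · rw [rotH_comm]
    simp [ix, iy, xy]
    abel
  · rw [rotH_comm]
    simp [ix, iy, Ne.symm xy]
    abel
  · rw [rotH_comm]
    simp [iy, ii, Ne.symm iy'', rotH_self]
    abel

end Vale.Agent.P225.Gen
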