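import Vale.Agent.P225.Interfaces

/-!
# P225: from generation to a word with surjective derivative

The letters are elements of `ι`; a letter `k` with parameter `t` acts on each level by
`segExp (R k i) (Ri k i) (Y i) t`. If the generators and the level scalars generate everything
under brackets with the generators, a word reaches a signed permutation for every permutation
tuple, and the derivative of the word map is onto there.
-/

namespace Vale.Agent.P225.Gen

open Filter Topology

noncomputable section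

variable {L : ℕ}

/-- The product of the matrix algebras of the levels. -/
abbrev LevAlg (d : Fin L → ℕ) := (i : Fin L) → Matrix (Fin (d i)) (Fin (d i)) ℝ

/-- The same space as a space of functions. -/
abbrev LevFun (d : Fin L → ℕ) := (i : Fin L) → Fin (d i) → Fin (d i) → ℝ

variable {d : Fin L → ℕ}

/-- A limit of difference quotients stays in a subspace. -/
theorem tangent_mem (V : Submodule ℝ (LevAlg d)) {f : ℝ → LevAlg d} {f' : LevAlg d}
    (hf : ∀ i a b, HasDerivAt (fun t => f t i a b) (f' i a b) 0) (hV : ∀ t, f t ∈ V) : f' ∈ V := by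
  have hlim : Tendsto (fun t => t⁻¹ • (f t - f 0)) (𝓝[≠] (0 : ℝ)) (𝓝 f') := by
    refine tendsto_pi_nhds.2 fun i => tendsto_pi_nhds.2 fun a => tendsto_pi_nhds.2 fun b => ?_
    refine (hasDerivAt_iff_tendsto_slope.1 (hf i a b)).congr' ?_
    exact Eventually.of_forall fun t => by simp [slope_def_field, div_eq_inv_mul]
  exact (Submodule.closed_of_finiteDimensional V).mem_of_tendsto hlim
    (Eventually.of_forall fun t => V.smul_mem _ (V.sub_mem (hV t) (hV 0)))

/-- The data of the letters. -/
structure Alpha (d : Fin L → ℕ) (ι : Type*) where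
  R : ι → LevAlg d
  Ri : ι → LevAlg d
  Y : (i : Fin L) → Fin (d i) → ℝ
  right_inv : ∀ k i, R k i * Ri k i = 1
  left_inv : ∀ k i, Ri k i * R k i = 1

namespace Alpha

variable {ι : Type*} (S : Alpha d ι)

/-- The generator of a letter. -/
def gen (k : ι) : LevAlg d := fun i => S.R k i * Matrix.diagonal (S.Y i) * S.Ri k i

/-- The transfer of a letter with its parameter. -/
def seg (x : ι × ℝ) : LevAlg d := fun i => segExp (S.R x.1 i) (S.Ri x.1 i) (S.Y i) x.2

/-- The transfer of a list of letters; later letters act on the left. -/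
def wprod (w : List (ι × ℝ)) : LevAlg d := (w.map S.seg).reverse.prod

/-- The inverse word. -/
def winv (w : List (ι × ℝ)) : List (ι × ℝ) := w.reverse.map fun x => (x.1, -x.2)

theorem seg_add (k : ι) (s t : ℝ) : S.seg (k, s + t) = S.seg (k, s) * S.seg (k, t) := by
  funext i
  simp only [seg, segExp, Pi.mul_apply, Matrix.mul_assoc]
  rw [← Matrix.mul_assoc (S.Ri k i) (S.R k i), S.left_inv, Matrix.one_mul,
    ← Matrix.mul_assoc (Matrix.diagonal _) (Matrix.diagonal _) (S.Ri k i),
    Matrix.diagonal_mul_diagonal]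
  simp [add_mul, Real.exp_add]

theorem seg_zero (k : ι) : S.seg (k, 0) = 1 := by
  funext i
  simp [seg, segExp, S.right_inv]

theorem wprod_nil : S.wprod [] = 1 := rfl

theorem wprod_append (u v : List (ι × ℝ)) : S.wprod (u ++ v) = S.wprod v * S.wprod u := by
  simp [wprod]

theorem wprod_singleton (x : ι × ℝ) : S.wprod [x] = S.seg x := by simp [wprod]

theorem wprod_cons (x : ι × ℝ) (v : List (ι × ℝ)) : S.wprod (x :: v) = S.wprod v * S.seg x := by
  simp [wprod]

theorem winv_mul (w : List (ι × ℝ)) : S.wprod (winv w) * S.wprod w = 1 := by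
  induction w using List.reverseRecOn with
  | nil => simp [winv, wprod_nil]
  | append_singleton w x ih =>
    have e : winv (w ++ [x]) = (x.1, -x.2) :: winv w := by simp [winv]
    rw [e, wprod_cons, wprod_append, wprod_singleton, mul_assoc,
      ← mul_assoc (S.seg (x.1, -x.2)), ← S.seg_add, neg_add_cancel, S.seg_zero, one_mul, ih]

theorem mul_winv (w : List (ι × ℝ)) : S.wprod w * S.wprod (winv w) = 1 := by
  have h := S.winv_mul (winv w)
  have e : winv (winv w) = w := by simp [winv, List.map_reverse, Function.comp_def]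
  rwa [e] at h

/-- The factor of the scalars. -/
def sc (γ : Fin L → ℝ) : LevAlg d := fun i => Real.exp (-γ i) • 1

omit S in
theorem sc_zero : (sc 0 : LevAlg d) = 1 := by
  funext i
  simp [sc]

omit S in
theorem sc_mul_sc (γ γ' : Fin L → ℝ) : (sc γ * sc γ' : LevAlg d) = sc (γ + γ') := by
  funext i
  simp [sc, smul_smul, ← Real.exp_add, add_comm]

omit S in
theorem sc_comm (γ : Fin L → ℝ) (x : LevAlg d) : sc γ * x = x * sc γ := by
  funext i
  simp [sc]

/-- What words with scalars reach. -/
def Reach : Set (LevAlg d) := {g | ∃ γ w, g = sc γ * S.wprod w}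

theorem one_mem_reach : (1 : LevAlg d) ∈ S.Reach := ⟨0, [], by simp [sc_zero, wprod_nil]⟩

theorem mul_mem_reach {g g' : LevAlg d} (h : g ∈ S.Reach) (h' : g' ∈ S.Reach) :
    g * g' ∈ S.Reach := by
  obtain ⟨γ, w, rfl⟩ := h
  obtain ⟨γ', w', rfl⟩ := h'
  refine ⟨γ + γ', w' ++ w, ?_⟩
  rw [wprod_append, ← sc_mul_sc, mul_assoc, ← mul_assoc (S.wprod w), ← sc_comm γ' (S.wprod w)]
  simp [mul_assoc]

/-- The generation hypothesis. -/
def Generates : Prop :=
  ∀ W : Submodule ℝ (LevAlg d), (∀ i, Pi.single i 1 ∈ W) → (∀ k, S.gen k ∈ W) →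
    (∀ k, ∀ w ∈ W, S.gen k * w - w * S.gen k ∈ W) → W = ⊤

/-- The conjugates of the generators. -/
def conjSet : Set (LevAlg d) :=
  {v | ∃ w k, v = S.wprod w * S.gen k * S.wprod (winv w)}

theorem hasDerivAt_seg_entry (A B : LevAlg d) (k : ι) (t : ℝ) (i : Fin L) (a b : Fin (d i)) :
    HasDerivAt (fun s => (A * S.seg (k, t + s) * B) i a b)
      ((A * S.gen k * S.seg (k, t) * B) i a b) 0 := by
  have e1 : ∀ s, (A * S.seg (k, t + s) * B) i a b =
      ∑ c, (A i * S.R k i) a c * Real.exp ((t + s) * S.Y i c) * (S.Ri k i * B i) c b := by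
    intro s
    rw [show (A * S.seg (k, t + s) * B) i =
        (A i * S.R k i) * Matrix.diagonal (fun c => Real.exp ((t + s) * S.Y i c)) *
          (S.Ri k i * B i) by simp [seg, segExp, Matrix.mul_assoc], Matrix.mul_apply]
    simp [Matrix.mul_diagonal]
  have e2 : (A * S.gen k * S.seg (k, t) * B) i a b =
      ∑ c, (A i * S.R k i) a c * (Real.exp (t * S.Y i c) * S.Y i c) * (S.Ri k i * B i) c b := by
    have h : (S.gen k * S.seg (k, t)) i = S.R k i *
        Matrix.diagonal (fun c => Real.exp (t * S.Y i c) * S.Y i c) * S.Ri k i := by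
      simp only [gen, seg, segExp, Pi.mul_apply, Matrix.mul_assoc]
      rw [← Matrix.mul_assoc (S.Ri k i) (S.R k i), S.left_inv, Matrix.one_mul,
        ← Matrix.mul_assoc (Matrix.diagonal _) (Matrix.diagonal _) (S.Ri k i),
        Matrix.diagonal_mul_diagonal]
      simp [mul_comm]
    rw [show (A * S.gen k * S.seg (k, t) * B) i = (A i * S.R k i) *
        Matrix.diagonal (fun c => Real.exp (t * S.Y i c) * S.Y i c) * (S.Ri k i * B i) by
      rw [mul_assoc A, Pi.mul_apply, Pi.mul_apply, h]; simp [Matrix.mul_assoc], Matrix.mul_apply]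
    simp [Matrix.mul_diagonal]
  simp only [e1, e2]
  refine HasDerivAt.fun_sum fun c _ => ?_
  have h1 : HasDerivAt (fun s : ℝ => (t + s) * S.Y i c) (S.Y i c) 0 := by
    simpa using ((hasDerivAt_id (0 : ℝ)).const_add t).mul_const (S.Y i c)
  simpa using (h1.exp.const_mul ((A i * S.R k i) a c)).mul_const ((S.Ri k i * B i) c b)

theorem conj_span_eq_top (h : S.Generates) :
    Submodule.span ℝ S.conjSet ⊔
      Submodule.span ℝ (Set.range fun i => (Pi.single i 1 : LevAlg d)) = ⊤ := by
  refine h _ (fun i => Submodule.mem_sup_right (Submodule.subset_span ⟨i, rfl⟩))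
    (fun k => Submodule.mem_sup_left (Submodule.subset_span ⟨[], k, by simp [winv, wprod_nil]⟩))
    fun k v hv => ?_
  have hcomm : ∀ (i : Fin L) (x : LevAlg d),
      (Pi.single i 1 : LevAlg d) * x = x * Pi.single i 1 := by
    intro i x
    funext j
    rcases eq_or_ne j i with rfl | hj
    · simp
    · simp [hj]
  obtain ⟨u, hu, z, hz, rfl⟩ := Submodule.mem_sup.1 hv
  have hz0 : S.gen k * z - z * S.gen k = 0 := by
    clear hv
    induction hz using Submodule.span_induction with
    | mem x hx => obtain ⟨i, rfl⟩ := hx; simp [hcomm]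
    | zero => simp
    | add x y _ _ hx hy =>
      rw [mul_add, add_mul, add_sub_add_comm, hx, hy, add_zero]
    | smul c x _ hx => rw [mul_smul_comm, smul_mul_assoc, ← smul_sub, hx, smul_zero]
  rw [mul_add, add_mul, add_sub_add_comm, hz0, add_zero]
  refine Submodule.mem_sup_left ?_
  refine tangent_mem _ (f := fun t => S.seg (k, t) * u * S.seg (k, -t)) ?_ fun t => ?_
  · intro i a b
    have hd : ∀ c e, HasDerivAt (fun t => S.seg (k, t) i c e) (S.gen k i c e) 0 := fun c e => by
      simpa [S.seg_zero] using S.hasDerivAt_seg_entry 1 1 k 0 i c e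
    have hd' : ∀ c e, HasDerivAt (fun t => S.seg (k, -t) i c e) (-S.gen k i c e) 0 := fun c e => by
      have h0 : HasDerivAt (fun t => S.seg (k, t) i c e) (S.gen k i c e) (-(0 : ℝ)) := by
        simpa using hd c e
      simpa [Function.comp_def] using h0.comp (0 : ℝ) (hasDerivAt_neg 0)
    have h1 : ∀ c, HasDerivAt (fun t => (S.seg (k, t) i * u i) a c) ((S.gen k i * u i) a c) 0 :=
      fun c => by
        simp only [Matrix.mul_apply]
        exact HasDerivAt.fun_sum fun e _ => (hd a e).mul_const _
    simp only [Pi.mul_apply, Pi.sub_apply, Matrix.sub_apply, Matrix.mul_apply (N := S.seg _ i)]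
    have e : (S.gen k i * u i) a b - (u i * S.gen k i) a b =
        ∑ c, ((S.gen k i * u i) a c * S.seg (k, -0) i c b +
          (S.seg (k, 0) i * u i) a c * -S.gen k i c b) := by
      rw [neg_zero, Finset.sum_add_distrib, ← Matrix.mul_apply, S.seg_zero, Pi.one_apply,
        Matrix.mul_one, Matrix.one_mul, Matrix.mul_apply (M := u i)]
      simp [sub_eq_add_neg]
    rw [e]
    exact HasDerivAt.fun_sum fun c _ => (h1 c).mul (hd' c b)
  · clear hv
    induction hu using Submodule.span_induction with
    | mem x hx =>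
      obtain ⟨w, l, rfl⟩ := hx
      refine Submodule.subset_span ⟨w ++ [(k, t)], l, ?_⟩
      have e : winv (w ++ [(k, t)]) = [(k, -t)] ++ winv w := by simp [winv]
      rw [e, wprod_append, wprod_append, wprod_singleton, wprod_singleton]
      simp [mul_assoc]
    | zero => simp
    | add x y _ _ hx hy =>
      simpa [mul_add, add_mul] using Submodule.add_mem _ hx hy
    | smul c x _ hx =>
      simpa [mul_smul_comm, smul_mul_assoc] using Submodule.smul_mem _ c hx

/-- The word map of a sequence of letters. -/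
abbrev map {M : ℕ} (k : Fin M → ι) : (Fin M → ℝ) × (Fin L → ℝ) → LevFun d :=
  wordMap d (fun m => S.R (k m)) (fun m => S.Ri (k m)) S.Y

theorem map_apply {M : ℕ} (k : Fin M → ι) (z : (Fin M → ℝ) × (Fin L → ℝ)) (i : Fin L)
    (a b : Fin (d i)) :
    S.map k z i a b = (sc z.2 * S.wprod (List.ofFn fun m => (k m, z.1 m)) : LevAlg d) i a b := by
  have h : ((List.ofFn fun m => S.seg (k m, z.1 m)).reverse.prod) i =
      segProd (fun m => S.R (k m) i) (fun m => S.Ri (k m) i) (S.Y i) z.1 := by
    rw [Pi.list_prod_apply, List.map_reverse, List.map_ofFn]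
    rfl
  simp [map, wordMap, wprod, sc, List.map_ofFn, Function.comp_def, h]

theorem contDiff_segProd (i : Fin L) : ∀ {M : ℕ} (k : Fin M → ι) (a b : Fin (d i)),
    ContDiff ℝ 1 fun τ : Fin M → ℝ =>
      segProd (fun m => S.R (k m) i) (fun m => S.Ri (k m) i) (S.Y i) τ a b
  | 0, k, a, b => by simpa [segProd] using contDiff_const
  | M + 1, k, a, b => by
    have e : ∀ τ : Fin (M + 1) → ℝ,
        segProd (fun m => S.R (k m) i) (fun m => S.Ri (k m) i) (S.Y i) τ a b =
        ∑ c, segProd (fun m => S.R (k m.succ) i) (fun m => S.Ri (k m.succ) i) (S.Y i)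
            (fun m => τ m.succ) a c *
          (∑ e, S.R (k 0) i c e * Real.exp (τ 0 * S.Y i e) * S.Ri (k 0) i e b) := by
      intro τ
      simp only [segProd, List.ofFn_succ, List.reverse_cons, List.prod_append, List.prod_singleton,
        segExp]
      rw [Matrix.mul_apply]
      refine Finset.sum_congr rfl fun c _ => ?_
      rw [Matrix.mul_apply]
      simp [Matrix.mul_diagonal]
    simp only [e]
    refine ContDiff.sum fun c _ => ContDiff.mul ?_ (ContDiff.sum fun e _ => ?_)
    · exact (contDiff_segProd i (fun m => k m.succ) a c).comp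
        (contDiff_pi.2 fun m => contDiff_apply ℝ ℝ m.succ)
    · exact (contDiff_const.mul
        (((contDiff_apply ℝ ℝ (0 : Fin (M + 1))).mul contDiff_const).exp)).mul contDiff_const

theorem hasStrictFDerivAt_map {M : ℕ} (k : Fin M → ι) (z : (Fin M → ℝ) × (Fin L → ℝ)) :
    HasStrictFDerivAt (S.map k) (fderiv ℝ (S.map k) z) z := by
  refine ContDiffAt.hasStrictFDerivAt ?_ one_ne_zero
  refine (contDiff_pi.2 fun i => contDiff_pi.2 fun a => contDiff_pi.2 fun b => ?_).contDiffAt
  simp only [map, wordMap]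
  exact (((contDiff_apply ℝ ℝ i).comp contDiff_snd).neg.exp).mul
    ((S.contDiff_segProd i k a b).comp contDiff_fst)

theorem fderiv_map_scalar {M : ℕ} (k : Fin M → ι) (τ : Fin M → ℝ) (γ : Fin L → ℝ) (j : Fin L) :
    fderiv ℝ (S.map k) (τ, γ) (0, Pi.single j 1) =
      fun i a b => (-(Pi.single j 1) * (sc γ * S.wprod (List.ofFn fun m => (k m, τ m))) : LevAlg d)
        i a b := by
  have h := (S.hasStrictFDerivAt_map k (τ, γ)).hasFDerivAt
  have hl : HasDerivAt (fun s : ℝ => ((τ, γ) : (Fin M → ℝ) × (Fin L → ℝ)) + s • (0, Pi.single j 1))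
      (0, Pi.single j 1) 0 := by
    simpa using ((hasDerivAt_id (0 : ℝ)).smul_const
      ((0, Pi.single j 1) : (Fin M → ℝ) × (Fin L → ℝ))).const_add (τ, γ)
  refine (h.comp_hasDerivAt_of_eq 0 hl (by simp)).unique ?_
  refine hasDerivAt_pi.2 fun i => hasDerivAt_pi.2 fun a => hasDerivAt_pi.2 fun b => ?_
  simp only [Function.comp_def, map_apply]
  rcases eq_or_ne i j with rfl | hij
  · have h1 : HasDerivAt (fun s : ℝ => Real.exp (-(γ i + s))) (-Real.exp (-γ i)) 0 := by
      simpa using ((hasDerivAt_id (0 : ℝ)).const_add (γ i)).neg.exp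
    simpa [sc] using h1.mul_const ((S.wprod (List.ofFn fun m => (k m, τ m))) i a b)
  · simpa [sc, Pi.single_eq_of_ne hij] using hasDerivAt_const (0 : ℝ) _

theorem fderiv_map_letter {w v : List (ι × ℝ)} (x : ι × ℝ) {M : ℕ} (k : Fin M → ι)
    (τ : Fin M → ℝ) (γ : Fin L → ℝ) (h : List.ofFn (fun m => (k m, τ m)) = w ++ x :: v)
    (hw : w.length < M) :
    fderiv ℝ (S.map k) (τ, γ) (Pi.single ⟨w.length, hw⟩ 1, 0) =
      fun i a b => (sc γ * S.wprod v * S.gen x.1 * S.seg x * S.wprod w : LevAlg d) i a b := by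
  have hh := (S.hasStrictFDerivAt_map k (τ, γ)).hasFDerivAt
  have hl : HasDerivAt (fun s : ℝ => ((τ, γ) : (Fin M → ℝ) × (Fin L → ℝ)) +
      s • (Pi.single ⟨w.length, hw⟩ 1, 0)) (Pi.single ⟨w.length, hw⟩ 1, 0) 0 := by
    simpa using ((hasDerivAt_id (0 : ℝ)).smul_const
      ((Pi.single ⟨w.length, hw⟩ 1, 0) : (Fin M → ℝ) × (Fin L → ℝ))).const_add (τ, γ)
  refine (hh.comp_hasDerivAt_of_eq 0 hl (by simp)).unique ?_
  refine hasDerivAt_pi.2 fun i => hasDerivAt_pi.2 fun a => hasDerivAt_pi.2 fun b => ?_
  simp only [Function.comp_def, map_apply]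
  have hlist : ∀ s : ℝ, (List.ofFn fun m => (k m, (τ + s • Pi.single ⟨w.length, hw⟩ 1 : Fin M → ℝ) m))
      = w ++ (x.1, x.2 + s) :: v := by
    intro s
    have hlen : M = w.length + (v.length + 1) := by simpa using congrArg List.length h
    refine List.ext_getElem (by simpa using hlen) fun j h1 h2 => ?_
    have hj := List.getElem_of_eq h (i := j) (by simpa using h1)
    simp only [List.getElem_ofFn] at hj ⊢
    rcases lt_trichotomy j w.length with hlt | rfl | hgt
    · rw [List.getElem_append_left hlt] at hj ⊢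
      simp [← hj, Fin.ext_iff, hlt.ne]
    · rw [List.getElem_append_right le_rfl] at hj ⊢
      simp at hj ⊢
      simp [← hj]
    · rw [List.getElem_append_right hgt.le, List.getElem_cons, dif_neg (by omega)] at hj ⊢
      simp [← hj, Fin.ext_iff, hgt.ne']
  simp only [Prod.smul_mk, Prod.mk_add_mk, smul_zero, add_zero, hlist, wprod_append, wprod_cons,
    ← mul_assoc]
  exact S.hasDerivAt_seg_entry (sc γ * S.wprod v) (S.wprod w) x.1 x.2 i a b

/-- A word with spanning conjugates inserted: same value, derivative onto. -/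
theorem exists_submersion (h : S.Generates) (u : List (ι × ℝ)) (γ : Fin L → ℝ) :
    ∃ (M : ℕ) (k : Fin M → ι) (τ : Fin M → ℝ),
      S.map k (τ, γ) = (fun i a b => (sc γ * S.wprod u : LevAlg d) i a b) ∧
      Function.Surjective (fderiv ℝ (S.map k) (τ, γ)) := by
  classical
  obtain ⟨B, hB, hspan, hli⟩ := exists_linearIndependent ℝ S.conjSet
  have hfin : B.Finite := hli.setFinite
  choose g l hgl using hB
  let blk : B → List (ι × ℝ) := fun x => winv (g x.2) ++ (l x.2, 0) :: g x.2
  have hblk : ∀ x, S.wprod (blk x) = 1 := fun x => by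
    simp [blk, wprod_append, wprod_cons, seg_zero, mul_winv]
  have hblks : ∀ xs : List B, S.wprod (xs.flatMap blk) = 1 := fun xs => by
    induction xs with
    | nil => rfl
    | cons x xs ih => rw [List.flatMap_cons, wprod_append, ih, hblk, one_mul]
  have := hfin.fintype
  let full := u ++ (Finset.univ : Finset B).toList.flatMap blk
  have hfull : S.wprod full = S.wprod u := by rw [wprod_append, hblks, one_mul]
  let k : Fin full.length → ι := fun m => (full[m.val]).1
  let τ : Fin full.length → ℝ := fun m => (full[m.val]).2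
  have hof : (List.ofFn fun m => (k m, τ m)) = full := List.ofFn_getElem
  refine ⟨_, k, τ, ?_, ?_⟩
  · funext i a b
    rw [map_apply, hof, hfull]
  intro y
  let T : LevAlg d := sc γ * S.wprod u
  let D : ((Fin full.length → ℝ) × (Fin L → ℝ)) →ₗ[ℝ] LevAlg d :=
    (fderiv ℝ (S.map k) (τ, γ)).toLinearMap
  have hsub : (Submodule.span ℝ S.conjSet ⊔
      Submodule.span ℝ (Set.range fun i => (Pi.single i 1 : LevAlg d))).map
        (LinearMap.mulRight ℝ T) ≤ LinearMap.range D := by
    rw [Submodule.map_sup, ← hspan, Submodule.map_span, Submodule.map_span, sup_le_iff,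
      Submodule.span_le, Submodule.span_le]
    constructor
    · rintro _ ⟨x, hx, rfl⟩
      obtain ⟨pre, post, hl⟩ := List.append_of_mem
        (show (⟨x, hx⟩ : B) ∈ (Finset.univ : Finset B).toList by simp)
      have hdec : full = (u ++ pre.flatMap blk ++ winv (g hx)) ++
          (l hx, 0) :: (g hx ++ post.flatMap blk) := by
        simp [full, hl, blk]
      refine ⟨(Pi.single ⟨(u ++ pre.flatMap blk ++ winv (g hx)).length, ?_⟩ 1, 0), ?_⟩
      · rw [hdec, List.length_append]
        simp
        omega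
      · change fderiv ℝ (S.map k) (τ, γ) _ = _
        rw [S.fderiv_map_letter (l hx, 0) k τ γ (hof.trans hdec)]
        simp only [wprod_append, hblks, one_mul, mul_one, seg_zero, LinearMap.mulRight_apply, T]
        have e : (sc γ * S.wprod (g hx) * S.gen (l hx) * (S.wprod (winv (g hx)) * S.wprod u) :
            LevAlg d) = x * (sc γ * S.wprod u) := by
          refine Eq.trans ?_ (congrArg (fun z : LevAlg d => z * (sc γ * S.wprod u)) (hgl hx).symm)
          rw [← mul_assoc _ (sc γ), ← sc_comm γ]
          simp only [mul_assoc]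
        exact e
    · rintro _ ⟨_, ⟨j, rfl⟩, rfl⟩
      refine ⟨(0, -Pi.single j 1), ?_⟩
      change fderiv ℝ (S.map k) (τ, γ) _ = _
      rw [show ((0, -Pi.single j 1) : (Fin full.length → ℝ) × (Fin L → ℝ)) =
        -(0, Pi.single j 1) by simp, _root_.map_neg, fderiv_map_scalar, hof, hfull]
      funext i a b
      simp [T, mul_assoc]
  rw [S.conj_span_eq_top h] at hsub
  let x : LevAlg d := fun i => Matrix.of (y i)
  have hx : x = (x * (sc (-γ) * S.wprod (winv u))) * T := by
    simp only [T, mul_assoc]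
    rw [← mul_assoc (S.wprod (winv u)), ← sc_comm γ (S.wprod (winv u)), mul_assoc (sc γ),
      S.winv_mul, mul_one, sc_mul_sc, neg_add_cancel, sc_zero, mul_one]
  obtain ⟨z, hz⟩ := hsub ⟨x * (sc (-γ) * S.wprod (winv u)), trivial, hx.symm⟩
  exact ⟨z, hz⟩

/-- The words cover a neighbourhood of the identity. -/
theorem reach_mem_nhds (h : S.Generates) : S.Reach ∈ 𝓝 (1 : LevAlg d) := by
  obtain ⟨M, k, τ, hval, hsurj⟩ := S.exists_submersion h [] 0
  have he := (S.hasStrictFDerivAt_map k (τ, 0)).map_nhds_eq_of_surj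
    (LinearMap.range_eq_top.2 hsurj)
  have hmem : Set.range (S.map k) ∈ 𝓝 (S.map k (τ, 0)) := by
    rw [← he, ← Set.image_univ]
    exact image_mem_map univ_mem
  rw [hval] at hmem
  have h1 : (sc 0 * S.wprod [] : LevAlg d) = 1 := by simp [sc_zero, wprod_nil]
  rw [h1] at hmem
  refine mem_of_superset (hmem : (Set.range (S.map k) : Set (LevAlg d)) ∈ 𝓝 (1 : LevAlg d)) ?_
  rintro _ ⟨z, rfl⟩
  refine ⟨z.2, List.ofFn fun m => (k m, z.1 m), ?_⟩
  funext i
  ext a b
  exact S.map_apply k z i a b

/-- The rotation of the plane of two basis vectors. -/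
def planeRot {m : ℕ} (a b : Fin m) (θ : ℝ) : Matrix (Fin m) (Fin m) ℝ :=
  1 + (Real.cos θ - 1) • (Matrix.single a a 1 + Matrix.single b b 1) +
    Real.sin θ • (Matrix.single b a 1 - Matrix.single a b 1)

omit S in
theorem planeRot_add {m : ℕ} {a b : Fin m} (hab : a ≠ b) (θ φ : ℝ) :
    planeRot a b (θ + φ) = planeRot a b θ * planeRot a b φ := by
  simp only [planeRot, Real.cos_add, Real.sin_add, add_mul, mul_add, one_mul, mul_one,
    smul_mul_smul_comm, sub_mul, mul_sub, Matrix.single_mul_single_same,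
    Matrix.single_mul_single_of_ne, ne_eq, hab, hab.symm, not_false_eq_true, smul_add, smul_sub]
  module

/-- A signed permutation on every level. -/
def mono (σ : (i : Fin L) → Equiv.Perm (Fin (d i))) (ε : (i : Fin L) → Fin (d i) → ℝ) :
    LevAlg d := fun i => Matrix.of (monoMat (σ i) (ε i))

omit S in
theorem mono_mul_mono (σ σ' : (i : Fin L) → Equiv.Perm (Fin (d i)))
    (ε ε' : (i : Fin L) → Fin (d i) → ℝ) :
    mono σ ε * mono σ' ε' = mono (σ * σ') fun i c => ε i (σ' i c) * ε' i c := by
  funext i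
  ext a c
  simp only [mono, Pi.mul_apply, Matrix.mul_apply, Matrix.of_apply, monoMat,
    Equiv.Perm.mul_apply]
  rw [Finset.sum_eq_single_of_mem (σ' i c) (Finset.mem_univ _) fun e _ he => by simp [he]]
  split_ifs <;> simp_all

theorem exists_mono_swap (h : S.Generates) (j : Fin L) {a b : Fin (d j)} (hab : a ≠ b) :
    ∃ ε, (∀ i c, |ε i c| = 1) ∧ mono (Pi.mulSingle j (Equiv.swap a b)) ε ∈ S.Reach := by
  classical
  let r : ℝ → LevAlg d := fun θ => Function.update 1 j (planeRot a b θ)
  have hadd : ∀ θ φ, r (θ + φ) = r θ * r φ := fun θ φ => by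
    funext i
    rcases eq_or_ne i j with rfl | hi
    · simp [r, planeRot_add hab]
    · simp [r, hi]
  have hzero : r 0 = 1 := by simp [r, planeRot]
  have hpow : ∀ (N : ℕ) θ, r (N * θ) = r θ ^ N := by
    intro N θ
    induction N with
    | zero => simp [hzero]
    | succ N ih => rw [Nat.cast_succ, add_mul, one_mul, hadd, ih, pow_succ]
  have hcont : Continuous r := by
    refine continuous_pi fun i => continuous_matrix fun c e => ?_
    rcases eq_or_ne i j with rfl | hi
    · simp only [r, Function.update_self, planeRot, Matrix.add_apply, Matrix.smul_apply]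
      fun_prop
    · simp only [r, Function.update_of_ne hi]
      exact continuous_const
  have hlim : Tendsto (fun N : ℕ => r (Real.pi / 2 / N)) atTop (𝓝 1) := by
    rw [← hzero]
    exact (hcont.tendsto 0).comp (tendsto_const_div_atTop_nhds_zero_nat _)
  obtain ⟨N, hN, hN0⟩ := ((hlim.eventually (S.reach_mem_nhds h)).and (eventually_gt_atTop 0)).exists
  have hr : r (Real.pi / 2) ∈ S.Reach := by
    rw [show Real.pi / 2 = N * (Real.pi / 2 / N) by field_simp, hpow]
    clear hN0
    generalize hg : r (Real.pi / 2 / N) = g at hN ⊢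
    exact Submonoid.pow_mem
      ⟨⟨S.Reach, fun h h' => S.mul_mem_reach h h'⟩, S.one_mem_reach⟩ hN N
  refine ⟨Function.update (fun _ _ => 1) j (fun c => if c = b then -1 else 1), ?_, ?_⟩
  · intro i c
    rcases eq_or_ne i j with rfl | hi
    · simp only [Function.update_self]
      split_ifs <;> simp
    · simp [hi]
  convert hr using 1
  funext i
  ext c e
  rcases eq_or_ne i j with rfl | hi
  · simp only [mono, r, planeRot, Real.cos_pi_div_two, Real.sin_pi_div_two, Pi.mulSingle_eq_same,
      Function.update_self, Matrix.of_apply, monoMat, Matrix.add_apply, Matrix.smul_apply,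
      Matrix.sub_apply, Matrix.one_apply, Matrix.single_apply, smul_eq_mul]
    rcases eq_or_ne e a with rfl | hea
    · rw [Equiv.swap_apply_left]
      rcases eq_or_ne c b with rfl | hcb
      · simp [hab, hab.symm]
      · simp [hab.symm, hcb, hcb.symm]
        rcases eq_or_ne c e with rfl | hce <;> simp [*, Ne.symm]
    rcases eq_or_ne e b with rfl | heb
    · rw [Equiv.swap_apply_right]
      rcases eq_or_ne c a with rfl | hca
      · simp [hab, hab.symm]
      · simp [hab, hca, hca.symm]
        rcases eq_or_ne c e with rfl | hce <;> simp [*, Ne.symm]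
    · rw [Equiv.swap_apply_of_ne_of_ne hea heb]
      simp [hea.symm, heb.symm, heb]
  · simp [mono, r, hi, monoMat, Matrix.one_apply]
    split_ifs <;> simp_all

theorem exists_mono (h : S.Generates) (σ : (i : Fin L) → Equiv.Perm (Fin (d i))) :
    ∃ ε, (∀ i c, |ε i c| = 1) ∧ mono σ ε ∈ S.Reach := by
  classical
  let P : ((i : Fin L) → Equiv.Perm (Fin (d i))) → Prop := fun σ =>
    ∃ ε, (∀ i c, |ε i c| = 1) ∧ mono σ ε ∈ S.Reach
  have hone : P 1 := ⟨fun _ _ => 1, fun _ _ => abs_one, by
    convert S.one_mem_reach using 1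
    funext i
    ext a b
    simp [mono, monoMat, Matrix.one_apply]
    split_ifs <;> simp_all⟩
  have hmul : ∀ σ σ', P σ → P σ' → P (σ * σ') := by
    rintro σ σ' ⟨ε, hε, hm⟩ ⟨ε', hε', hm'⟩
    exact ⟨_, fun i c => by simp [abs_mul, hε, hε'], mono_mul_mono σ σ' ε ε' ▸ S.mul_mem_reach hm hm'⟩
  have hsingle : ∀ (j : Fin L) (τ : Equiv.Perm (Fin (d j))), P (Pi.mulSingle j τ) := fun j τ => by
    induction τ using Equiv.Perm.swap_induction_on with
    | one => simpa using hone
    | swap_mul f a b hab ih =>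
      rw [Pi.mulSingle_mul]
      exact hmul _ _ (S.exists_mono_swap h j hab) ih
  suffices ∀ s : Finset (Fin L), P fun i => if i ∈ s then σ i else 1 by
    simpa using this Finset.univ
  intro s
  induction s using Finset.induction_on with
  | empty =>
    simp only [Finset.notMem_empty, if_false]
    exact hone
  | insert j s hj ih =>
    have e : (fun i => if i ∈ insert j s then σ i else 1) =
        Pi.mulSingle j (σ j) * fun i => if i ∈ s then σ i else 1 := by
      funext i
      rcases eq_or_ne i j with rfl | hi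
      · simp [hj]
      · simp [hi]
    rw [e]
    exact hmul _ _ (hsingle j _) ih

/-- The word for a permutation tuple, with surjective derivative. -/
theorem exists_word (h : S.Generates) (σ : (i : Fin L) → Equiv.Perm (Fin (d i))) :
    ∃ (M : ℕ) (k : Fin M → ι) (τ : Fin M → ℝ) (γ : Fin L → ℝ) (ε : (i : Fin L) → Fin (d i) → ℝ),
      (∀ i a, |ε i a| = 1) ∧ S.map k (τ, γ) = (fun i => monoMat (σ i) (ε i)) ∧
      ∃ D : (Fin M → ℝ) × (Fin L → ℝ) →L[ℝ] LevFun d,
        HasStrictFDerivAt (S.map k) D (τ, γ) ∧ Function.Surjective D := by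
  obtain ⟨ε, hε, γ, u, hu⟩ := S.exists_mono h σ
  obtain ⟨M, k, τ, hval, hsurj⟩ := S.exists_submersion h u γ
  refine ⟨M, k, τ, γ, ε, hε, ?_, _, S.hasStrictFDerivAt_map k (τ, γ), hsurj⟩
  rw [hval, ← hu]
  rfl

end Alpha

end

end Vale.Agent.P225.Gen
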